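import Vale.Agent.P307.PDefs

/-! P307 module C12: typed bijections. -/

open Cardinal

universe u

namespace Vale.Agent.P307

variable {Q Q' P : Type u}

/-- Same multiplicities: there is a type preserving bijection.  (`mult T univ p` is the
cardinality of the fibre; choose a bijection of the fibres for each `p` and glue, for example with
`Equiv.sigmaFiberEquiv` and `Equiv.sigmaCongrRight`.) -/
theorem exists_typed_equiv (T : Q → P) (T' : Q' → P)
    (h : ∀ p, mult T Set.univ p = mult T' Set.univ p) : ∃ σ : Q ≃ Q', ∀ a, T' (σ a) = T a := by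
  have h1 : ∀ p, Nonempty ({a : Q // T a = p} ≃ {a : Q' // T' a = p}) := by
    intro p
    obtain ⟨e⟩ := Cardinal.eq.1 (h p)
    have e1 : {a : Q // T a = p} ≃ {a : Q // a ∈ (Set.univ : Set Q) ∧ T a = p} :=
      Equiv.subtypeEquivRight fun a => by simp
    have e2 : {a : Q' // a ∈ (Set.univ : Set Q') ∧ T' a = p} ≃ {a : Q' // T' a = p} :=
      Equiv.subtypeEquivRight fun a => by simp
    exact ⟨e1.trans (e.trans e2)⟩
  refine ⟨(Equiv.sigmaFiberEquiv T).symm.trans
    ((Equiv.sigmaCongrRight fun p => Classical.choice (h1 p)).trans (Equiv.sigmaFiberEquiv T')),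
    fun a => ?_⟩
  exact (Classical.choice (h1 (T a)) ⟨a, rfl⟩).2

/-- Apply `exists_typed_equiv` to the typings `a ↦ (T a, ULift (a ∈ J))` (with values in
`P × ULift Prop` or `P × ULift Bool`). -/
theorem exists_typed_perm (T : Q → P) (J J' : Set Q) (h : ∀ p, mult T J p = mult T J' p)
    (h' : ∀ p, mult T Jᶜ p = mult T J'ᶜ p) :
    ∃ σ : Q ≃ Q, (∀ a, T (σ a) = T a) ∧ ∀ a, σ a ∈ J' ↔ a ∈ J := by
  have key : ∀ (K : Set Q) (p : P) (b : Prop),
      (b → mult (fun a => ((T a, ULift.up (a ∈ K)) : P × ULift.{u} Prop)) Set.univ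
        (p, ULift.up b) = mult T K p) ∧
      (¬ b → mult (fun a => ((T a, ULift.up (a ∈ K)) : P × ULift.{u} Prop)) Set.univ
        (p, ULift.up b) = mult T Kᶜ p) := by
    intro K p b
    constructor
    · intro hb
      refine Cardinal.mk_congr (Equiv.subtypeEquivRight fun a => ?_)
      rw [Prod.mk.injEq, ULift.up.injEq]
      constructor
      · rintro ⟨_, h1, h2⟩
        exact ⟨h2 ▸ hb, h1⟩
      · rintro ⟨h1, h2⟩
        exact ⟨Set.mem_univ a, h2, propext ⟨fun _ => hb, fun _ => h1⟩⟩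
    · intro hb
      refine Cardinal.mk_congr (Equiv.subtypeEquivRight fun a => ?_)
      rw [Prod.mk.injEq, ULift.up.injEq]
      constructor
      · rintro ⟨_, h1, h2⟩
        exact ⟨fun h3 => hb (h2 ▸ h3), h1⟩
      · rintro ⟨h1, h2⟩
        exact ⟨Set.mem_univ a, h2, propext ⟨fun h3 => absurd h3 h1, fun h3 => absurd h3 hb⟩⟩
  obtain ⟨σ, hσ⟩ := exists_typed_equiv
    (fun a => ((T a, ULift.up (a ∈ J)) : P × ULift.{u} Prop))
    (fun a => ((T a, ULift.up (a ∈ J')) : P × ULift.{u} Prop)) (by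
      rintro ⟨p, ⟨b⟩⟩
      by_cases hb : b
      · rw [(key J p b).1 hb, (key J' p b).1 hb, h p]
      · rw [(key J p b).2 hb, (key J' p b).2 hb, h' p])
  refine ⟨σ, fun a => ?_, fun a => ?_⟩
  · exact congrArg Prod.fst (hσ a)
  · have h1 : (ULift.up (σ a ∈ J') : ULift.{u} Prop) = ULift.up (a ∈ J) :=
      congrArg Prod.snd (hσ a)
    rw [ULift.up.injEq] at h1
    exact iff_of_eq h1

end Vale.Agent.P307
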