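import Vale.Agent.P307.C12

/-! P307 module C3: two small full sets are conjugate. -/

open Cardinal

universe u

namespace Vale.Agent.P307

variable {Q P : Type u}

theorem c3_mult_le (T : Q → P) (J : Set Q) (p : P) : mult T J p ≤ #J :=
  mk_le_of_injective (f := fun x : {a : Q // a ∈ J ∧ T a = p} => (⟨x.1, x.2.1⟩ : J))
    fun x y hxy => by simpa [Subtype.ext_iff] using hxy

theorem c3_split (T : Q → P) (J : Set Q) (p : P) :
    mult T J p + mult T Jᶜ p = mult T Set.univ p := by
  classical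
  unfold mult
  have e : {a : Q // a ∈ J ∧ T a = p} ⊕ {a : Q // a ∈ Jᶜ ∧ T a = p} ≃
      {a : Q // a ∈ (Set.univ : Set Q) ∧ T a = p} :=
    { toFun := fun x => x.elim (fun y => ⟨y.1, Set.mem_univ _, y.2.2⟩)
        (fun y => ⟨y.1, Set.mem_univ _, y.2.2⟩)
      invFun := fun x => if h : x.1 ∈ J then Sum.inl ⟨x.1, h, x.2.2⟩ else Sum.inr ⟨x.1, h, x.2.2⟩
      left_inv := by
        rintro (⟨a, h1, h2⟩ | ⟨a, h1, h2⟩)
        · exact dif_pos h1
        · exact dif_neg h1
      right_inv := by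
        rintro ⟨a, h1, h2⟩
        by_cases h : a ∈ J
        · simp only [dif_pos h, Sum.elim_inl]
        · simp only [dif_neg h, Sum.elim_inr] }
  rw [← mk_congr e, mk_sum, lift_id, lift_id]

/-- For `p ∉ B` both sets contain all elements of type `p` (so `mult J p = mult univ p = mult J' p`
and the complements have none).  For `p ∈ B` we have `mult J p = χ = mult J' p` (at least `χ` by
`Full`, at most `#J ≤ χ`), and as `mult univ p > χ` is infinite, both complements have
`mult univ p` elements of type `p`.  Then `exists_typed_perm`. -/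
theorem full_perm {T : Q → P} {B : Set P} {χ : Cardinal.{u}} (hχ : ℵ₀ ≤ χ)
    (hB : ∀ p ∈ B, χ < mult T Set.univ p) {J J' : Set Q} (hJ : Full T B χ J)
    (hJ' : Full T B χ J') (h : #J ≤ χ) (h' : #J' ≤ χ) :
    ∃ σ : Q ≃ Q, (∀ a, T (σ a) = T a) ∧ ∀ a, σ a ∈ J' ↔ a ∈ J := by
  have key : ∀ p ∈ B, ∀ I : Set Q, Full T B χ I → #I ≤ χ →
      mult T I p = χ ∧ mult T Iᶜ p = mult T Set.univ p := by
    intro p hp I hI hIc
    have h1 : mult T I p = χ := le_antisymm ((c3_mult_le T I p).trans hIc) (hI.2 p hp)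
    refine ⟨h1, ?_⟩
    refine eq_of_add_eq_of_aleph0_le (c3_split T I p) ?_ (hχ.trans (hB p hp).le)
    rw [h1]
    exact hB p hp
  have key2 : ∀ p, p ∉ B → ∀ I : Set Q, Full T B χ I →
      mult T I p = mult T Set.univ p ∧ mult T Iᶜ p = 0 := by
    intro p hp I hI
    constructor
    · refine le_antisymm (mult_mono T (Set.subset_univ _) p) ?_
      exact mk_le_of_injective (f := fun x : {a : Q // a ∈ (Set.univ : Set Q) ∧ T a = p} =>
        (⟨x.1, hI.1 x.1 (by rw [x.2.2]; exact hp), x.2.2⟩ : {a : Q // a ∈ I ∧ T a = p}))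
        fun x y hxy => by simpa [Subtype.ext_iff] using hxy
    · unfold mult
      rw [mk_eq_zero_iff]
      refine ⟨fun x => ?_⟩
      exact x.2.1 (hI.1 x.1 (by rw [x.2.2]; exact hp))
  refine exists_typed_perm T J J' (fun p => ?_) (fun p => ?_)
  · by_cases hp : p ∈ B
    · rw [(key p hp J hJ h).1, (key p hp J' hJ' h').1]
    · rw [(key2 p hp J hJ).1, (key2 p hp J' hJ').1]
  · by_cases hp : p ∈ B
    · rw [(key p hp J hJ h).2, (key p hp J' hJ' h').2]
    · rw [(key2 p hp J hJ).2, (key2 p hp J' hJ').2]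

end Vale.Agent.P307
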