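import Vale.Agent.P307.PDefs

/-! P307 module C4: small full subsets. -/

open Cardinal

universe u

namespace Vale.Agent.P307

variable {Q P : Type u}

/-- `J' = A ∪ {a | T a ∉ B} ∪ ⋃ p ∈ B, S p` with `S p` a subset of `χ` elements of
`{a ∈ J | T a = p}` (use `Cardinal.le_mk_iff_exists_subset` or similar);
`#J' ≤ χ + χ + χ * χ = χ`. -/
theorem exists_full_subset {T : Q → P} {B : Set P} {χ : Cardinal.{u}} (hχ : ℵ₀ ≤ χ)
    (hP : #P ≤ χ) (hS : #{a : Q // T a ∉ B} ≤ χ) {J A : Set Q} (hJ : Full T B χ J)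
    (hA : A ⊆ J) (hAχ : #A ≤ χ) :
    ∃ J' : Set Q, A ⊆ J' ∧ J' ⊆ J ∧ Full T B χ J' ∧ #J' ≤ χ := by
  have h1 : ∀ p : B, ∃ S : Set Q, S ⊆ {a | a ∈ J ∧ T a = p} ∧ #S = χ := fun p =>
    le_mk_iff_exists_subset.mp (hJ.2 p.1 p.2)
  choose S hS1 hS2 using h1
  refine ⟨(A ∪ {a | T a ∉ B}) ∪ ⋃ p : B, S p, fun a ha => Or.inl (Or.inl ha), ?_, ⟨?_, ?_⟩, ?_⟩
  · rintro a ((ha | ha) | ha)
    · exact hA ha
    · exact hJ.1 a ha
    · obtain ⟨p, hp⟩ := Set.mem_iUnion.mp ha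
      exact (hS1 p hp).1
  · exact fun a ha => Or.inl (Or.inr ha)
  · intro p hp
    rw [← hS2 ⟨p, hp⟩]
    refine mk_le_mk_of_subset (t := {a | a ∈ (A ∪ {a | T a ∉ B}) ∪ ⋃ p : B, S p ∧ T a = p}) ?_
    intro a ha
    exact ⟨Or.inr (Set.mem_iUnion.mpr ⟨⟨p, hp⟩, ha⟩), (hS1 ⟨p, hp⟩ ha).2⟩
  · have h2 : #(⋃ p : B, S p) ≤ χ := by
      refine (mk_iUnion_le_sum_mk).trans ?_
      simp only [hS2, sum_const, lift_id]
      exact (mul_le_mul' ((mk_set_le B).trans hP) le_rfl).trans (mul_eq_self hχ).le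
    refine (mk_union_le _ _).trans ?_
    refine (add_le_add ((mk_union_le _ _).trans (add_le_add hAχ hS)) h2).trans ?_
    rw [add_eq_self hχ, add_eq_self hχ]

end Vale.Agent.P307
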