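import Vale.Agent.P307.C4

/-! P307 module C5: a large full set is the union of a chain of smaller full sets. -/

open Cardinal

universe u

namespace Vale.Agent.P307

variable {Q P : Type u}

/-- Let `μ = #J₂ > χ`, `J₀ ⊆ J₁` full with `#J₀ ≤ χ` (`exists_full_subset`), `ι = μ.ord.ToType`
with its well order and a bijection `f : ι ≃ J₂` (`mk_ord_toType`), and
`F i = J₀ ∪ {f j | j ≤ i}`.  Initial segments of `ι` have cardinality `< μ`
(`Cardinal.mk_Iio_ord_toType` or similar; `Iic i = Iio i ∪ {i}` and `μ` is infinite).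
`J₁ ∩ F i ⊇ J₀` is full by `Full.mono`. -/
theorem exists_full_chain {T : Q → P} {B : Set P} {χ : Cardinal.{u}} (hχ : ℵ₀ ≤ χ)
    (hP : #P ≤ χ) (hS : #{a : Q // T a ∉ B} ≤ χ) {J₁ J₂ : Set Q} (h1 : Full T B χ J₁)
    (h12 : J₁ ⊆ J₂) (hc : χ < #J₂) :
    ∃ (ι : Type u) (_ : LinearOrder ι) (_ : WellFoundedLT ι) (_ : Nonempty ι) (F : ι → Set Q),
      Monotone F ∧ (∀ i, Full T B χ (J₁ ∩ F i)) ∧ (∀ i, F i ⊆ J₂) ∧ (∀ i, #(F i) < #J₂) ∧
        ⋃ i, F i = J₂ := by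
  obtain ⟨J₀, -, h01, hF, hJ₀⟩ := exists_full_subset (A := ∅) hχ hP hS h1 (Set.empty_subset _)
    (by simp)
  have hμ : ℵ₀ ≤ #J₂ := hχ.trans hc.le
  obtain ⟨f⟩ : Nonempty ((#J₂).ord.ToType ≃ J₂) := Cardinal.eq.1 (mk_ord_toType _)
  have hne : Nonempty (#J₂).ord.ToType := by
    rw [← mk_ne_zero_iff, mk_ord_toType]
    exact (lt_of_lt_of_le aleph0_pos hμ).ne'
  refine ⟨(#J₂).ord.ToType, inferInstance, inferInstance, hne,
    fun i => J₀ ∪ (fun j => ((f j : J₂) : Q)) '' Set.Iic i, ?_, ?_, ?_, ?_, ?_⟩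
  · intro i j hij
    exact Set.union_subset_union_right _ (Set.image_mono (Set.Iic_subset_Iic.2 hij))
  · intro i
    exact hF.mono (Set.subset_inter h01 Set.subset_union_left)
  · intro i
    refine Set.union_subset (h01.trans h12) ?_
    rintro _ ⟨j, -, rfl⟩
    exact (f j).2
  · intro i
    refine lt_of_le_of_lt (mk_union_le _ _) (add_lt_of_lt hμ (lt_of_le_of_lt hJ₀ hc) ?_)
    refine lt_of_le_of_lt mk_image_le ?_
    rw [← Set.Iio_insert]
    refine lt_of_le_of_lt mk_insert_le (add_lt_of_lt hμ (mk_Iio_toType_ord_lt i) ?_)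
    exact lt_of_lt_of_le one_lt_aleph0 hμ
  · refine Set.Subset.antisymm (Set.iUnion_subset fun i => ?_) ?_
    · refine Set.union_subset (h01.trans h12) ?_
      rintro _ ⟨j, -, rfl⟩
      exact (f j).2
    · intro x hx
      refine Set.mem_iUnion.2 ⟨f.symm ⟨x, hx⟩, Or.inr ⟨f.symm ⟨x, hx⟩, Set.mem_Iic.2 le_rfl, ?_⟩⟩
      simp

end Vale.Agent.P307
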