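import Vale.Agent.P307.PDefs

/-! P307 module C6: typed embedding of a small full set into another typed set. -/

open Cardinal

universe u

namespace Vale.Agent.P307

variable {Q Q' P : Type u}

/-- For every `p` there is an injection `{a ∈ J | T a = p} → {b | T' b = p}`, which is a
bijection for `p ∉ B` (then `J` contains all elements of type `p` and the multiplicities are
equal); for `p ∈ B` use `mult T J p ≤ #J ≤ χ ≤ mult T' univ p`.  Glue them to `g`.
If `J₁ ⊆ J` is full then it contains all elements of type `p ∉ B`, so its image contains all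
elements of `Q'` of type `p`; for `p ∈ B` the image has `mult T J₁ p ≥ χ` elements of type `p`. -/
theorem exists_typed_embedding {T : Q → P} {T' : Q' → P} {B : Set P} {χ : Cardinal.{u}}
    (hB : ∀ p, p ∉ B → mult T Set.univ p = mult T' Set.univ p)
    (hB' : ∀ p ∈ B, χ ≤ mult T' Set.univ p)
    {J : Set Q} (hJ : Full T B χ J) (hc : #J ≤ χ) :
    ∃ g : J → Q', Function.Injective g ∧ (∀ a : J, T' (g a) = T (a : Q)) ∧
      ∀ J₁ : Set Q, J₁ ⊆ J → Full T B χ J₁ →
        Full T' B χ {b | ∃ a : J, (a : Q) ∈ J₁ ∧ g a = b} := by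
  have key : ∀ p, ∃ h : {a : Q // a ∈ J ∧ T a = p} → {b : Q' // b ∈ Set.univ ∧ T' b = p},
      Function.Injective h ∧ (p ∉ B → Function.Surjective h) := by
    intro p
    by_cases hp : p ∈ B
    · have h1 : #{a : Q // a ∈ J ∧ T a = p} ≤ #{b : Q' // b ∈ Set.univ ∧ T' b = p} := by
        refine le_trans ?_ (hc.trans (hB' p hp))
        exact mk_le_of_injective (f := fun x : {a : Q // a ∈ J ∧ T a = p} =>
          (⟨x.1, x.2.1⟩ : J)) fun x y hxy => by
            simpa [Subtype.ext_iff] using hxy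
      obtain ⟨f⟩ := (Cardinal.le_def _ _).1 h1
      exact ⟨f, f.injective, fun h => absurd hp h⟩
    · have h1 : #{a : Q // a ∈ J ∧ T a = p} = #{b : Q' // b ∈ Set.univ ∧ T' b = p} := by
        refine Eq.trans ?_ (hB p hp)
        refine mk_congr (Equiv.subtypeEquivRight fun a => ?_)
        constructor
        · rintro ⟨_, h⟩
          exact ⟨trivial, h⟩
        · rintro ⟨_, h⟩
          exact ⟨hJ.1 a (by rw [h]; exact hp), h⟩
      obtain ⟨f⟩ := Cardinal.eq.1 h1
      exact ⟨f, f.injective, fun _ => f.surjective⟩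
  choose h hinj hsurj using key
  let g : J → Q' := fun a => (h (T a.1) ⟨a.1, a.2, rfl⟩).1
  have hg : ∀ (a : J) (p : P) (hp : T a.1 = p), g a = (h p ⟨a.1, a.2, hp⟩).1 := by
    rintro a p rfl
    rfl
  have hT : ∀ a : J, T' (g a) = T (a : Q) := fun a => (h (T a.1) ⟨a.1, a.2, rfl⟩).2.2
  have hgi : Function.Injective g := by
    intro a b hab
    have h1 : T a.1 = T b.1 := by rw [← hT a, ← hT b, hab]
    have h2 := hg a (T b.1) h1
    have h3 := hg b (T b.1) rfl
    have h4 := hinj (T b.1) (Subtype.ext (h2.symm.trans (hab.trans h3)))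
    have h5 : a.1 = b.1 := (Subtype.ext_iff.1 h4 : _)
    exact Subtype.ext h5
  refine ⟨g, hgi, hT, fun J₁ h1 hJ₁ => ⟨?_, ?_⟩⟩
  · intro b hb
    obtain ⟨⟨a, haJ, hap⟩, ha⟩ := hsurj (T' b) hb ⟨b, trivial, rfl⟩
    refine ⟨⟨a, haJ⟩, hJ₁.1 a (by rw [hap]; exact hb), ?_⟩
    rw [hg ⟨a, haJ⟩ (T' b) hap]
    exact congrArg Subtype.val ha
  · intro p hp
    refine (hJ₁.2 p hp).trans ?_
    refine mk_le_of_injective (f := fun x : {a : Q // a ∈ J₁ ∧ T a = p} =>
      (⟨g ⟨x.1, h1 x.2.1⟩, ⟨⟨x.1, h1 x.2.1⟩, x.2.1, rfl⟩, (hT _).trans x.2.2⟩ :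
        {b : Q' // b ∈ {b | ∃ a : J, (a : Q) ∈ J₁ ∧ g a = b} ∧ T' b = p})) ?_
    intro x y hxy
    have h2 : g ⟨x.1, h1 x.2.1⟩ = g ⟨y.1, h1 y.2.1⟩ := Subtype.ext_iff.1 hxy
    have h3 : x.1 = y.1 := (Subtype.ext_iff.1 (hgi h2) : _)
    exact Subtype.ext h3

end Vale.Agent.P307
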