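import Vale.Agent.P307.PDefs

/-! P307 module CL: closing off. -/

open FirstOrder FirstOrder.Language FirstOrder.Language.Structure Cardinal

universe u

namespace Vale.Agent.P307

variable {L : Language.{u, u}}

/-- The Löwenheim-Skolem property holds for every `χ ≥ K.LS` (the infimum in the definition of
`K.LS` is attained, by `K.exists_ls`). -/
theorem ls_property (K : AEC L) {χ : Cardinal.{u}} (hLS : K.LS ≤ χ) (M : Type u) [L.Structure M]
    (hM : K.Mem M) (A : Set M) :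
    ∃ S : L.Substructure M, A ⊆ S ∧ K.Le S ⊤ ∧ #S ≤ #A + χ := by
  have h := csInf_mem (s := {l : Cardinal.{u} | ℵ₀ ≤ l ∧ L.card ≤ l ∧
    ∀ (M : Type u) [L.Structure M], K.Mem M → ∀ A : Set M, ∃ S : L.Substructure M,
      A ⊆ S ∧ K.Le S ⊤ ∧ #S ≤ #A + l}) K.exists_ls
  obtain ⟨S, h1, h2, h3⟩ := h.2.2 M hM A
  exact ⟨S, h1, h2, h3.trans (add_le_add le_rfl hLS)⟩

theorem CL_preimage {M Q : Type u} {q : M → Q} {χ : Cardinal.{u}} (hχ : ℵ₀ ≤ χ)
    (hfib : ∀ a, #(q ⁻¹' {a}) ≤ χ) {J : Set Q} (hJ : #J ≤ χ) : #(q ⁻¹' J) ≤ χ := by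
  have h1 : q ⁻¹' J = ⋃ a : J, q ⁻¹' {(a : Q)} := by
    ext x
    constructor
    · intro hx
      exact Set.mem_iUnion.2 ⟨⟨q x, hx⟩, rfl⟩
    · intro hx
      obtain ⟨a, ha⟩ := Set.mem_iUnion.1 hx
      have : q x = a := ha
      show q x ∈ J
      rw [this]
      exact a.2
  rw [h1]
  refine (mk_iUnion_le _).trans ?_
  calc #J * ⨆ a : J, #(q ⁻¹' {(a : Q)}) ≤ χ * χ :=
        mul_le_mul' hJ (ciSup_le' fun a => hfib a)
    _ = χ := mul_eq_self hχ

/-- Closing off: `J_0 = A ∪ constSet`, `S_n ⊇ q ⁻¹' J_n` with `K.Le (S_n) ⊤` and `#(S_n) ≤ χ`,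
`J_(n+1) = J_n ∪ q '' S_n` (`#(q ⁻¹' J_n) ≤ χ * χ`).  Then `S_n ≤ S_(n+1)`, so
`K.Le (S_n) (S_(n+1))` by coherence (and `K.Le (S_i) (S_j)` for `i ≤ j`), and
`⨆ n, S_n = U L hq (⋃ n, J_n)`; use `K.iSup_le` with the index type `ULift ℕ` and
`K.le_refl`/`K.mem_right` for `⊤`. -/
theorem exists_closed (K : AEC L) {χ : Cardinal.{u}} {M Q : Type u} [L.Structure M]
    (hM : K.Mem M) {q : M → Q} (hq : Resp L q) (hχ : ℵ₀ ≤ χ) (hLS : K.LS ≤ χ)
    (hLc : L.card ≤ χ) (hfib : ∀ a, #(q ⁻¹' {a}) ≤ χ) (A : Set Q) (hA : #A ≤ χ) :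
    ∃ J : Set Q, A ⊆ J ∧ constSet L q ⊆ J ∧ #J ≤ χ ∧ K.Le (U L hq J) ⊤ := by
  choose S hS1 hS2 hS3 using fun J : Set Q => ls_property K hLS M hM (q ⁻¹' J)
  obtain ⟨F, hF0, hFs⟩ : ∃ F : ℕ → Set Q, F 0 = A ∪ constSet L q ∧
      ∀ n, F (n + 1) = F n ∪ q '' (S (F n)) :=
    ⟨fun n => Nat.rec (A ∪ constSet L q) (fun _ J => J ∪ q '' (S J)) n, rfl, fun n => rfl⟩
  have hc : ∀ n, #(F n : Set Q) ≤ χ := by
    intro n
    induction n with
    | zero =>
      rw [hF0]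
      refine (mk_union_le _ _).trans ?_
      calc #A + #(constSet L q) ≤ χ + χ := add_le_add hA ((mk_constSet_le L q).trans hLc)
        _ = χ := add_eq_self hχ
    | succ n ih =>
      rw [hFs]
      refine (mk_union_le _ _).trans ?_
      have h1 : #(q '' (S (F n))) ≤ χ := by
        refine mk_image_le.trans ((hS3 (F n)).trans ?_)
        calc #(q ⁻¹' (F n)) + χ ≤ χ + χ := add_le_add (CL_preimage hχ hfib ih) le_rfl
          _ = χ := add_eq_self hχ
      calc #(F n) + #(q '' (S (F n))) ≤ χ + χ := add_le_add ih h1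
        _ = χ := add_eq_self hχ
  have hmF : Monotone F := monotone_nat_of_le_succ fun n => by
    rw [hFs]
    exact Set.subset_union_left
  have hSF : ∀ n, S (F n) ≤ S (F (n + 1)) := by
    intro n x hx
    refine hS1 (F (n + 1)) ?_
    show q x ∈ F (n + 1)
    rw [hFs]
    exact Or.inr ⟨x, hx, rfl⟩
  have hmS : Monotone fun n => S (F n) := monotone_nat_of_le_succ hSF
  let G : ULift.{u} ℕ → L.Substructure M := fun n => S (F n.down)
  have hG : ∀ i j : ULift.{u} ℕ, i ≤ j → K.Le (G i) (G j) := fun i j hij =>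
    K.coherence (hmS hij) (hS2 _) (hS2 _)
  have hmem : K.Le (⨆ i, G i) ⊤ := K.iSup_le G hG ⊤ fun i => hS2 _
  refine ⟨⋃ n, F n, ?_, ?_, ?_, ?_⟩
  · exact (Set.subset_union_left.trans hF0.ge).trans (Set.subset_iUnion F 0)
  · exact (Set.subset_union_right.trans hF0.ge).trans (Set.subset_iUnion F 0)
  · have h1 : (⋃ n, F n) = ⋃ n : ULift.{u} ℕ, F n.down := by
      ext x
      simp only [Set.mem_iUnion]
      exact ⟨fun ⟨n, hn⟩ => ⟨⟨n⟩, hn⟩, fun ⟨n, hn⟩ => ⟨n.down, hn⟩⟩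
    rw [h1]
    refine (mk_iUnion_le _).trans ?_
    calc #(ULift.{u} ℕ) * ⨆ n : ULift.{u} ℕ, #(F n.down) ≤ χ * χ := by
          refine mul_le_mul' ?_ (ciSup_le' fun a => hc a.down)
          rw [mk_uLift, mk_nat, lift_aleph0]
          exact hχ
      _ = χ := mul_eq_self hχ
  · have h1 : (⨆ i, G i) = U L hq (⋃ n, F n) := by
      apply le_antisymm
      · refine iSup_le fun i => ?_
        intro x hx
        refine Or.inl (Set.mem_iUnion.2 ⟨i.down + 1, ?_⟩)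
        rw [hFs]
        exact Or.inr ⟨x, hx, rfl⟩
      · intro x hx
        have h2 : q x ∈ ⋃ n, F n := by
          rcases hx with hx | hx
          · exact hx
          · exact Set.mem_iUnion.2 ⟨0, hF0.ge (Or.inr hx)⟩
        obtain ⟨n, hn⟩ := Set.mem_iUnion.1 h2
        exact (le_iSup G ⟨n⟩) (hS1 (F n) hn)
    rw [← h1]
    exact hmem

end Vale.Agent.P307
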