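import Vale.Agent.P307.PDefs

/-! P307 module CNT: counting. -/

open Cardinal

universe u

namespace Vale.Agent.P307

variable {Q P N : Type u}

/-- `Q` is the disjoint union of the fibres of `T`. -/
theorem mk_eq_sum_mult (T : Q → P) : #Q = Cardinal.sum (fun p => mult T Set.univ p) := by
  have h1 : ∀ p, mult T Set.univ p = #{a : Q // T a = p} := fun p =>
    mk_congr (Equiv.subtypeEquivRight fun a => by simp)
  simp only [h1]
  rw [← mk_sigma]
  exact mk_congr (Equiv.sigmaFiberEquiv T).symm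

theorem cnt_le (T : Q → P) {μ : Cardinal.{u}} (hμ : ℵ₀ ≤ μ) (hP : #P ≤ μ)
    (h : ∀ p, mult T Set.univ p ≤ μ) : #Q ≤ μ := by
  rw [mk_eq_sum_mult T]
  calc Cardinal.sum (fun p => mult T Set.univ p) ≤ Cardinal.sum (fun _ : P => μ) :=
        sum_le_sum _ _ h
    _ = #P * μ := sum_const' _ _
    _ ≤ μ * μ := mul_le_mul' hP le_rfl
    _ = μ := mul_eq_self hμ

theorem cnt_mult_le (T : Q → P) (J : Set Q) (p : P) : mult T J p ≤ #Q :=
  mk_le_of_injective Subtype.val_injective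

theorem mk_small_le {T : Q → P} {χ : Cardinal.{u}} (hχ : ℵ₀ ≤ χ) (hP : #P ≤ χ) :
    #{a : Q // T a ∉ {p | χ < mult T Set.univ p}} ≤ χ := by
  refine cnt_le (fun a : {a : Q // T a ∉ {p | χ < mult T Set.univ p}} => T a.1) hχ hP ?_
  intro p
  by_cases hp : χ < mult T Set.univ p
  · have : mult (fun a : {a : Q // T a ∉ {p | χ < mult T Set.univ p}} => T a.1) Set.univ p = 0 := by
      rw [mult, mk_eq_zero_iff]
      refine ⟨fun x => ?_⟩
      have h1 := x.1.2
      have h2 : T x.1.1 = p := x.2.2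
      rw [h2] at h1
      exact h1 hp
    rw [this]
    exact zero_le
  · refine le_trans ?_ (not_lt.1 hp)
    refine mk_le_of_injective (f := fun x => ⟨x.1.1, trivial, x.2.2⟩) ?_
    intro x y hxy
    apply Subtype.ext
    apply Subtype.ext
    have h1 := Subtype.ext_iff.1 hxy
    exact h1

/-- `#Q ≤ #N ≤ #Q * l` -/
theorem mk_index {q : N → Q} (hs : Function.Surjective q) {l κ : Cardinal.{u}} (hl : ℵ₀ ≤ l)
    (hfib : ∀ a, #(q ⁻¹' {a}) ≤ l) (hκ : l < κ) : #N = κ ↔ #Q = κ := by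
  have h1 : #Q ≤ #N := mk_le_of_surjective hs
  have h2 : #N ≤ #Q * l := by
    rw [mk_eq_sum_mult q]
    calc Cardinal.sum (fun p => mult q Set.univ p) ≤ Cardinal.sum (fun _ : Q => l) := by
          refine sum_le_sum _ _ fun a => ?_
          refine le_trans (le_of_eq ?_) (hfib a)
          exact mk_congr (Equiv.subtypeEquivRight fun x => by simp)
      _ = #Q * l := sum_const' _ _
  have hκ0 : ℵ₀ ≤ κ := hl.trans hκ.le
  constructor
  · intro h
    rw [h] at h1 h2
    refine le_antisymm h1 ?_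
    by_contra hlt
    exact absurd h2 (not_le.2 (mul_lt_of_lt hκ0 (not_le.1 hlt) hκ))
  · intro h
    rw [h] at h1 h2
    refine le_antisymm (h2.trans ?_) h1
    calc κ * l ≤ κ * κ := mul_le_mul' le_rfl hκ.le
      _ = κ := mul_eq_self hκ0

theorem mk_of_mult {T : Q → P} {χ κ : Cardinal.{u}} (hχ : ℵ₀ ≤ χ) (hP : #P ≤ χ) (hκ : χ ≤ κ)
    (t : P) (ht : mult T Set.univ t = κ) (h : ∀ p, p ≠ t → mult T Set.univ p ≤ χ) : #Q = κ := by
  refine le_antisymm ?_ ?_
  · refine cnt_le T (hχ.trans hκ) (hP.trans hκ) fun p => ?_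
    by_cases hp : p = t
    · rw [hp, ht]
    · exact (h p hp).trans hκ
  · rw [← ht]
    exact cnt_mult_le _ _ _

theorem mult_of_mk {T : Q → P} {χ κ : Cardinal.{u}} (hχ : ℵ₀ ≤ χ) (hP : #P ≤ χ) (hκ : χ < κ)
    (t : P) (hQ : #Q = κ) (h : ∀ p, p ≠ t → mult T Set.univ p ≤ χ) :
    mult T Set.univ t = κ := by
  refine le_antisymm ?_ ?_
  · rw [← hQ]
    exact cnt_mult_le _ _ _
  · by_contra hlt
    have h1 : #Q ≤ max χ (mult T Set.univ t) := by
      refine cnt_le T (hχ.trans (le_max_left _ _)) (hP.trans (le_max_left _ _)) fun p => ?_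
      by_cases hp : p = t
      · rw [hp]
        exact le_max_right _ _
      · exact (h p hp).trans (le_max_left _ _)
    rw [hQ] at h1
    exact absurd h1 (not_le.2 (max_lt hκ (not_le.1 hlt)))

theorem exists_big (T : Q → P) {χ : Cardinal.{u}} (hχ : ℵ₀ ≤ χ) (hP : #P ≤ χ) (hQ : χ < #Q) :
    ∃ t, χ < mult T Set.univ t := by
  by_contra hcon
  push Not at hcon
  exact absurd (cnt_le T hχ hP hcon) (not_le.2 hQ)

end Vale.Agent.P307
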