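import Mathlib.ModelTheory.Substructures
import Mathlib.SetTheory.Cardinal.Arithmetic

open FirstOrder FirstOrder.Language FirstOrder.Language.Structure Cardinal

universe u

namespace Vale.Agent.P307

structure AEC (L : Language.{u, u}) where
  Mem : ∀ (M : Type u) [L.Structure M], Prop
  Le : ∀ {M : Type u} [L.Structure M], L.Substructure M → L.Substructure M → Prop
  mem_of_equiv : ∀ {M N : Type u} [L.Structure M] [L.Structure N],
    (M ≃[L] N) → Mem M → Mem N
  le_of_equiv : ∀ {M N : Type u} [L.Structure M] [L.Structure N]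
    {S T : L.Substructure M} {S' T' : L.Substructure N} (e : T ≃[L] T'),
    S ≤ T → S' ≤ T' → (∀ x : T, (x : M) ∈ S ↔ (e x : N) ∈ S') → Le S T → Le S' T'
  sub_of_le : ∀ {M : Type u} [L.Structure M] {S T : L.Substructure M}, Le S T → S ≤ T
  mem_left : ∀ {M : Type u} [L.Structure M] {S T : L.Substructure M}, Le S T → Mem S
  mem_right : ∀ {M : Type u} [L.Structure M] {S T : L.Substructure M}, Le S T → Mem T
  le_refl : ∀ {M : Type u} [L.Structure M] {S : L.Substructure M}, Mem S → Le S S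
  le_trans : ∀ {M : Type u} [L.Structure M] {S T U : L.Substructure M},
    Le S T → Le T U → Le S U
  coherence : ∀ {M : Type u} [L.Structure M] {S T U : L.Substructure M},
    S ≤ T → Le S U → Le T U → Le S T
  mem_iSup : ∀ {M : Type u} [L.Structure M] {ι : Type u} [LinearOrder ι] [WellFoundedLT ι]
    [Nonempty ι] (S : ι → L.Substructure M), (∀ i j, i ≤ j → Le (S i) (S j)) →
    Mem (⨆ i, S i : L.Substructure M)
  le_iSup : ∀ {M : Type u} [L.Structure M] {ι : Type u} [LinearOrder ι] [WellFoundedLT ι]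
    [Nonempty ι] (S : ι → L.Substructure M), (∀ i j, i ≤ j → Le (S i) (S j)) →
    ∀ i, Le (S i) (⨆ i, S i)
  iSup_le : ∀ {M : Type u} [L.Structure M] {ι : Type u} [LinearOrder ι] [WellFoundedLT ι]
    [Nonempty ι] (S : ι → L.Substructure M), (∀ i j, i ≤ j → Le (S i) (S j)) →
    ∀ T : L.Substructure M, (∀ i, Le (S i) T) → Le (⨆ i, S i) T
  exists_ls : ∃ l : Cardinal.{u}, ℵ₀ ≤ l ∧ L.card ≤ l ∧
    ∀ (M : Type u) [L.Structure M], Mem M → ∀ A : Set M, ∃ S : L.Substructure M,
      A ⊆ S ∧ Le S ⊤ ∧ #S ≤ #A + l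

namespace AEC

variable {L : Language.{u, u}} (K : AEC L)

noncomputable def LS : Cardinal.{u} :=
  sInf {l : Cardinal.{u} | ℵ₀ ≤ l ∧ L.card ≤ l ∧
    ∀ (M : Type u) [L.Structure M], K.Mem M → ∀ A : Set M, ∃ S : L.Substructure M,
      A ⊆ S ∧ K.Le S ⊤ ∧ #S ≤ #A + l}

def Categorical (κ : Cardinal.{u}) : Prop :=
  (∃ (M : Type u) (_ : L.Structure M), K.Mem M ∧ #M = κ) ∧
  ∀ (M N : Type u) [L.Structure M] [L.Structure N], K.Mem M → K.Mem N → #M = κ → #N = κ →
    Nonempty (M ≃[L] N)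

end AEC

variable (L : Language.{u, u}) {M : Type u} [L.Structure M]

def Adj (x y : M) : Prop :=
  (∃ (n : ℕ) (R : L.Relations n) (v : Fin n → M),
    RelMap R v ∧ x ∈ Set.range v ∧ y ∈ Set.range v) ∨
  (∃ (n : ℕ) (f : L.Functions n) (v : Fin n → M),
    x ∈ insert (funMap f v) (Set.range v) ∧ y ∈ insert (funMap f v) (Set.range v))

def component (x : M) : Set M := {y | Relation.EqvGen (Adj L) x y}

end Vale.Agent.P307
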