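import Vale.Agent.P307.C12

/-! P307 module ISO: components and isomorphisms. -/

open FirstOrder FirstOrder.Language FirstOrder.Language.Structure Cardinal

universe u

namespace Vale.Agent.P307

variable (L : Language.{u, u})

/-- `Q` = quotient by the equivalence relation `Relation.EqvGen (Adj L)`. -/
theorem exists_pres (M : Type u) [L.Structure M] :
    ∃ (Q : Type u) (q : M → Q), Pres L M Q q ∧ ∀ x, q ⁻¹' {q x} = component L x := by
  let s : Setoid M := Relation.EqvGen.setoid (Adj L)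
  have hq : ∀ x y : M, (Quotient.mk s x = Quotient.mk s y) ↔ Relation.EqvGen (Adj L) x y :=
    fun x y => ⟨fun h => Quotient.exact h, fun h => Quotient.sound h⟩
  refine ⟨Quotient s, Quotient.mk s, ⟨?_, ?_, ?_⟩, ?_⟩
  · intro x y h
    exact (hq x y).2 (Relation.EqvGen.rel _ _ h)
  · exact Quotient.mk_surjective
  · intro x y h
    exact (hq x y).1 h
  · intro x
    ext y
    rw [Set.mem_preimage, Set.mem_singleton_iff, hq]
    exact ⟨fun h => h.symm, fun h => h.symm⟩

/-- an isomorphism preserves adjacency -/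
theorem iso_adj {M N : Type u} [L.Structure M] [L.Structure N] (e : M ≃[L] N) {x y : M}
    (h : Adj L x y) : Adj L (e x) (e y) := by
  rcases h with ⟨n, R, v, hR, ⟨i, hi⟩, ⟨j, hj⟩⟩ | ⟨n, f, v, hx, hy⟩
  · left
    refine ⟨n, R, fun k => e (v k), ?_, ⟨i, by rw [← hi]⟩, ⟨j, by rw [← hj]⟩⟩
    exact (e.map_rel R v).2 hR
  · right
    have hf : funMap f (fun k => e (v k)) = e (funMap f v) := (e.map_fun f v).symm
    refine ⟨n, f, fun k => e (v k), ?_, ?_⟩
    · rcases hx with hx | ⟨i, hi⟩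
      · left; rw [hx, hf]
      · right; exact ⟨i, by rw [← hi]⟩
    · rcases hy with hy | ⟨i, hi⟩
      · left; rw [hy, hf]
      · right; exact ⟨i, by rw [← hi]⟩

theorem iso_eqv {M N : Type u} [L.Structure M] [L.Structure N] (e : M ≃[L] N) {x y : M}
    (h : Relation.EqvGen (Adj L) x y) : Relation.EqvGen (Adj L) (e x) (e y) := by
  induction h with
  | rel x y h => exact Relation.EqvGen.rel _ _ (iso_adj L e h)
  | refl x => exact Relation.EqvGen.refl _
  | symm x y _ ih => exact ih.symm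
  | trans x y z _ _ ih1 ih2 => exact ih1.trans _ _ _ ih2

theorem iso_pres {M Q : Type u} [L.Structure M] {q : M → Q} (hq : Pres L M Q q) (x y : M) :
    q x = q y ↔ Relation.EqvGen (Adj L) x y := by
  refine ⟨hq.conn x y, fun h => ?_⟩
  induction h with
  | rel x y h => exact hq.resp x y h
  | refl x => rfl
  | symm x y _ ih => exact ih.symm
  | trans x y z _ _ ih1 ih2 => exact ih1.trans ih2

variable (Λ : Type u) {M N Q Q' : Type u} [L.Structure M] [L.Structure N]

/-- the map of the index sets induced by an isomorphism -/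
theorem iso_index {q : M → Q} {q' : N → Q'} (hq : Pres L M Q q) (hq' : Pres L N Q' q')
    (e : M ≃[L] N) : ∃ σ : Q ≃ Q', ∀ x, σ (q x) = q' (e x) := by
  have h1 : ∀ x y, q x = q y ↔ q' (e x) = q' (e y) := by
    intro x y
    rw [iso_pres L hq, iso_pres L hq']
    refine ⟨iso_eqv L e, fun h => ?_⟩
    have := iso_eqv L e.symm h
    simpa using this
  let f : Q → Q' := fun a => q' (e (Function.surjInv hq.surj a))
  have hf : ∀ x, f (q x) = q' (e x) := by
    intro x
    exact (h1 _ _).1 (Function.surjInv_eq hq.surj (q x))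
  have hinj : Function.Injective f := by
    intro a b hab
    obtain ⟨x, rfl⟩ := hq.surj a
    obtain ⟨y, rfl⟩ := hq.surj b
    rw [hf, hf] at hab
    exact (h1 x y).2 hab
  have hsurj : Function.Surjective f := by
    intro b
    obtain ⟨y, rfl⟩ := hq'.surj b
    refine ⟨q (e.symm y), ?_⟩
    rw [hf]
    simp
  exact ⟨Equiv.ofBijective f ⟨hinj, hsurj⟩, hf⟩

/-- restriction of an isomorphism to a set -/
theorem iso_subIso (e : M ≃[L] N) (F : Set M) (G : Set N) (h : ∀ x, x ∈ F ↔ e x ∈ G) :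
    SubIso L F G := by
  refine ⟨⟨fun x => ⟨e x.1, (h x.1).1 x.2⟩, fun y => ⟨e.symm y.1, (h _).2 (by simp)⟩,
    fun x => Subtype.ext (by simp), fun y => Subtype.ext (by simp)⟩, fun n R v => ?_,
    fun n f v x => ?_⟩
  · exact (e.map_rel R (fun k => (v k : M))).symm
  · have h1 : funMap f (fun k => e (v k : M)) = e (funMap f (fun k => (v k : M))) :=
      (e.map_fun f _).symm
    change _ ↔ funMap f (fun k => e (v k : M)) = e x
    rw [h1]
    exact e.injective.eq_iff.symm

/-- An isomorphism induces a bijection of the index sets (both `q x = q y` and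
`q' (e x) = q' (e y)` mean that `x`, `y` are in the same component, `Adj` is preserved by `e`),
and its restriction to a fibre is a `SubIso`; use `ty_eq_of_subIso`. -/
theorem mult_eq_of_equiv {q : M → Q} {q' : N → Q'} (hq : Pres L M Q q) (hq' : Pres L N Q' q')
    (e : M ≃[L] N) (p : Pat L Λ) :
    mult (tq L Λ q) Set.univ p = mult (tq L Λ q') Set.univ p := by
  obtain ⟨σ, hσ⟩ := iso_index L hq hq' e
  have hT : ∀ a, tq L Λ q' (σ a) = tq L Λ q a := by
    intro a
    refine (ty_eq_of_subIso L Λ (iso_subIso L e _ _ fun x => ?_)).symm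
    rw [Set.mem_preimage, Set.mem_singleton_iff, Set.mem_preimage, Set.mem_singleton_iff, ← hσ]
    exact σ.injective.eq_iff.symm
  refine mk_congr (σ.subtypeEquiv fun a => ?_)
  rw [hT]
  simp

/-- `exists_typed_equiv`, `subIso_of_ty_eq`, `exists_equiv_of_subIso`. -/
theorem equiv_of_mult_eq {q : M → Q} {q' : N → Q'} (hq : Resp L q) (hq' : Resp L q')
    (hf : ∀ a, #(q ⁻¹' {a}) ≤ #Λ) (hf' : ∀ a, #(q' ⁻¹' {a}) ≤ #Λ) (hne : Nonempty Q)
    (h : ∀ p, mult (tq L Λ q) Set.univ p = mult (tq L Λ q') Set.univ p) :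
    Nonempty (M ≃[L] N) := by
  obtain ⟨σ, hσ⟩ := exists_typed_equiv (tq L Λ q) (tq L Λ q') h
  obtain ⟨e, _⟩ := exists_equiv_of_subIso L hq hq' σ fun a =>
    subIso_of_ty_eq L Λ (hf a) (hf' (σ a)) (hσ a).symm
  exact ⟨e⟩

/-- If `b` has the same type as the component `a` of the constant `c` then `c` is in the fibre of
`b` (the function part of `SubIso` with `n = 0`), so `b = a`. -/
theorem mult_const_le_one {q : M → Q} (hf : ∀ a, #(q ⁻¹' {a}) ≤ #Λ) {a : Q}
    (ha : a ∈ constSet L q) : mult (tq L Λ q) Set.univ (tq L Λ q a) ≤ 1 := by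
  obtain ⟨c, v, hc⟩ := ha
  rw [mult, le_one_iff_subsingleton]
  have key : ∀ b : Q, tq L Λ q b = tq L Λ q a → b = a := by
    intro b hb
    obtain ⟨e, _, h2⟩ := subIso_of_ty_eq L Λ (hf a) (hf b) hb.symm
    have h3 := (h2 0 c (fun k => k.elim0) ⟨funMap c v, hc⟩).1
      (congrArg (funMap c) (Subsingleton.elim _ _))
    have h4 : q (e ⟨funMap c v, hc⟩ : M) = b := (e ⟨funMap c v, hc⟩).2
    rw [← h3] at h4
    exact h4.symm.trans ((congrArg (fun w => q (funMap c w)) (Subsingleton.elim _ _)).trans hc)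
  refine ⟨fun x y => Subtype.ext ?_⟩
  rw [key x.1 x.2.2, key y.1 y.2.2]

/-- By `mult_const_le_one` the types of the components of the constants are not in `B`. -/
theorem constSet_subset {q : M → Q} (hf : ∀ a, #(q ⁻¹' {a}) ≤ #Λ) {B : Set (Pat L Λ)}
    {χ : Cardinal.{u}} (hχ : ℵ₀ ≤ χ) {J : Set Q} (hJ : Full (tq L Λ q) B χ J) :
    constSet L q ⊆ J := by
  intro a ha
  refine hJ.1 a fun hB => ?_
  have h1 := hJ.2 _ hB
  have h2 := (mult_mono (tq L Λ q) (Set.subset_univ J) (tq L Λ q a)).trans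
    (mult_const_le_one L Λ hf ha)
  have h3 : ℵ₀ ≤ (1 : Cardinal.{u}) := hχ.trans (h1.trans h2)
  exact absurd h3 (not_le.2 one_lt_aleph0)

/-- If `f` has arity `≥ 2`, apply it to a tuple with `v 0` in the fibre of `a` and `v 1` in the
fibre of `b`: `a = q (v 0) = q (f v) = q (v 1) = b`. -/
theorem isEmpty_functions {q : M → Q} (hq : Resp L q) (hs : Function.Surjective q) {a b : Q}
    (hab : a ≠ b) (n : ℕ) : IsEmpty (L.Functions (n + 2)) := by
  refine ⟨fun f => hab ?_⟩
  obtain ⟨x, rfl⟩ := hs a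
  obtain ⟨y, rfl⟩ := hs b
  let v : Fin (n + 2) → M := Fin.cons x (fun _ => y)
  have h0 : q (v 0) = q (funMap f v) := hq.fn L f v 0
  have h1 : q (v 1) = q (funMap f v) := hq.fn L f v 1
  have e0 : v 0 = x := rfl
  have e1 : v 1 = y := rfl
  rw [e0] at h0
  rw [e1] at h1
  rw [h0, h1]

end Vale.Agent.P307
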