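import Vale.Agent.P307.C5
import Vale.Agent.P307.ISO

/-! P307 module ML: from small to all full sets, by induction on the cardinality. -/

open FirstOrder FirstOrder.Language FirstOrder.Language.Structure Cardinal

universe u

namespace Vale.Agent.P307

variable {L : Language.{u, u}}

/-- Induction on `μ = #J₂` (well-founded induction on cardinals).  If `μ ≤ χ` use `hbase`.
Otherwise take the chain `F i` of `exists_full_chain`; `F i` is full by `Full.mono`.  By
induction `K.Le (U (J₁ ∩ F i)) (U (F i))` and `K.Le (U (F i)) (U (F j))` and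
`K.Le (U (J₁ ∩ F i)) (U (J₁ ∩ F j))` for `i ≤ j` (all of size `< μ`).  By `iSup_U`,
`U J₂ = ⨆ i, U (F i)` and `U J₁ = ⨆ i, U (J₁ ∩ F i)`; `K.le_iSup`, `K.le_trans` and
`K.iSup_le` give the claim. -/
theorem full_le_full (K : AEC L) (Λ : Type u) {χ : Cardinal.{u}} {N Q : Type u} [L.Structure N]
    {q : N → Q} (hq : Resp L q) (hχ : ℵ₀ ≤ χ) (hPat : #(Pat L Λ) ≤ χ) {B : Set (Pat L Λ)}
    (hS : #{a : Q // tq L Λ q a ∉ B} ≤ χ)
    (hbase : ∀ J₁ J₂ : Set Q, Full (tq L Λ q) B χ J₁ → J₁ ⊆ J₂ → #J₂ ≤ χ →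
      K.Le (U L hq J₁) (U L hq J₂)) :
    ∀ J₁ J₂ : Set Q, Full (tq L Λ q) B χ J₁ → J₁ ⊆ J₂ → K.Le (U L hq J₁) (U L hq J₂) := by
  have main : ∀ μ : Cardinal.{u}, ∀ J₁ J₂ : Set Q, #J₂ = μ → Full (tq L Λ q) B χ J₁ → J₁ ⊆ J₂ →
      K.Le (U L hq J₁) (U L hq J₂) := by
    intro μ
    induction μ using WellFoundedLT.induction with
    | ind μ ih =>
      intro J₁ J₂ hμ h1 h12
      rcases le_or_gt (#J₂) χ with hle | hlt
      · exact hbase J₁ J₂ h1 h12 hle
      · obtain ⟨ι, _, _, _, F, hF, hfull, hsub, hcard, hun⟩ :=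
          exists_full_chain hχ hPat hS h1 h12 hlt
        have hFfull : ∀ i, Full (tq L Λ q) B χ (F i) := fun i =>
          (hfull i).mono Set.inter_subset_right
        have e2 : (⨆ i, U L hq (F i)) = U L hq J₂ := by rw [iSup_U L F hF, hun]
        have e1 : (⨆ i, U L hq (J₁ ∩ F i)) = U L hq J₁ := by
          rw [iSup_U L (fun i => J₁ ∩ F i)
            (fun i j hij => Set.inter_subset_inter_right _ (hF hij)), ← Set.inter_iUnion, hun,
            Set.inter_eq_left.2 h12]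
        have hFF : ∀ i j, i ≤ j → K.Le (U L hq (F i)) (U L hq (F j)) := fun i j hij =>
          ih _ (hμ ▸ hcard j) (F i) (F j) rfl (hFfull i) (hF hij)
        have hJF : ∀ i, K.Le (U L hq (J₁ ∩ F i)) (U L hq (F i)) := fun i =>
          ih _ (hμ ▸ hcard i) (J₁ ∩ F i) (F i) rfl (hfull i) Set.inter_subset_right
        have hJJ : ∀ i j, i ≤ j → K.Le (U L hq (J₁ ∩ F i)) (U L hq (J₁ ∩ F j)) := fun i j hij =>
          ih _ (hμ ▸ (mk_le_mk_of_subset Set.inter_subset_right).trans_lt (hcard j))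
            (J₁ ∩ F i) (J₁ ∩ F j) rfl (hfull i) (Set.inter_subset_inter_right _ (hF hij))
        rw [← e1]
        refine K.iSup_le (fun i => U L hq (J₁ ∩ F i)) hJJ (U L hq J₂) (fun i => ?_)
        refine K.le_trans (hJF i) ?_
        rw [← e2]
        exact K.le_iSup (fun i => U L hq (F i)) hFF i
  exact fun J₁ J₂ h1 h12 => main _ J₁ J₂ rfl h1 h12

end Vale.Agent.P307
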