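import Vale.Agent.P307.ST2
import Vale.Agent.P307.ML
import Vale.Agent.P307.C6

/-! P307 module EP: membership depends only on the multiplicities up to large changes. -/

open FirstOrder FirstOrder.Language FirstOrder.Language.Structure Cardinal

universe u

namespace Vale.Agent.P307

variable {L : Language.{u, u}}

/-- Let `B = {p | χ < mult (tq L Λ q) univ p}`, `T' = tq L Λ q'`.  The index set of types not in
`B` is small in `Q'` too (sum of at most `χ` multiplicities `≤ χ`).  `hbase` of `full_le_full`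
for `N`: let `J₁ ⊆ J₂ ⊆ Q'` be full with `#J₂ ≤ χ`; `exists_typed_embedding` (from `Q'` to `Q`)
gives `g : J₂ → Q` with full images of `J₁` and `J₂`; by `full_le_top` both images are strong in
`⊤`, so `K.Le (U (g J₁)) (U (g J₂))` by coherence; `le_transport` gives
`K.Le (U J₁) (U J₂)` in `N`.  By `full_le_full`, `K.Le (U univ) (U univ)`, so `U univ = ⊤` is a
member (`K.mem_left`), and `K.mem_of_equiv` with `Substructure.topEquiv`. -/
theorem mem_of_mult (K : AEC L) (Λ : Type u) {χ : Cardinal.{u}} (hχ : ℵ₀ ≤ χ) (hΛχ : #Λ ≤ χ)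
    (hLS : K.LS ≤ χ) (hLc : L.card ≤ χ) (hPat : #(Pat L Λ) ≤ χ)
    {M Q : Type u} [L.Structure M] (hM : K.Mem M) {q : M → Q} (hq : Resp L q)
    (hs : Function.Surjective q) (hf : ∀ a, #(q ⁻¹' {a}) ≤ #Λ)
    {N Q' : Type u} [L.Structure N] {q' : N → Q'} (hq' : Resp L q')
    (hs' : Function.Surjective q') (hf' : ∀ a, #(q' ⁻¹' {a}) ≤ #Λ) (hne : Nonempty Q')
    (h1 : ∀ p, mult (tq L Λ q) Set.univ p ≤ χ →
      mult (tq L Λ q') Set.univ p = mult (tq L Λ q) Set.univ p)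
    (h2 : ∀ p, χ < mult (tq L Λ q) Set.univ p → χ ≤ mult (tq L Λ q') Set.univ p) :
    K.Mem N := by
  classical
  obtain ⟨B, hBdef⟩ : ∃ B : Set (Pat L Λ), B = {p | χ < mult (tq L Λ q) Set.univ p} := ⟨_, rfl⟩
  have hmemB : ∀ p, p ∈ B ↔ χ < mult (tq L Λ q) Set.univ p := by
    intro p; rw [hBdef]; rfl
  have hS : #{a : Q' // tq L Λ q' a ∉ B} ≤ χ := by
    refine le_trans ?_ (mk_small_le (T := tq L Λ q') hχ hPat)
    refine mk_le_of_injective (f := fun x : {a : Q' // tq L Λ q' a ∉ B} =>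
      (⟨x.1, fun hx => x.2 ((hmemB _).2 (by
        by_contra hc
        have h3 := h1 _ (not_lt.1 hc)
        have h4 : χ < mult (tq L Λ q') Set.univ (tq L Λ q' x.1) := hx
        rw [h3] at h4
        exact hc h4))⟩ :
        {a : Q' // tq L Λ q' a ∉ {p | χ < mult (tq L Λ q') Set.univ p}})) ?_
    intro x y hxy
    have h7 := Subtype.ext_iff.1 hxy
    exact Subtype.ext h7
  have hbase : ∀ J₁ J₂ : Set Q', Full (tq L Λ q') B χ J₁ → J₁ ⊆ J₂ → #J₂ ≤ χ →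
      K.Le (U L hq' J₁) (U L hq' J₂) := by
    intro J₁ J₂ hJ₁ h12 hJ₂c
    have hJ₂ : Full (tq L Λ q') B χ J₂ := hJ₁.mono h12
    obtain ⟨g, hg, hgt, hgf⟩ := exists_typed_embedding (T := tq L Λ q') (T' := tq L Λ q)
      (B := B) (χ := χ) (fun p hp => h1 p (not_lt.1 (fun h => hp ((hmemB p).2 h))))
      (fun p hp => ((hmemB p).1 hp).le) hJ₂ hJ₂c
    obtain ⟨I₁, hI₁⟩ : ∃ I₁ : Set Q, I₁ = {b | ∃ a : J₂, (a : Q') ∈ J₁ ∧ g a = b} := ⟨_, rfl⟩
    obtain ⟨I₂, hI₂⟩ : ∃ I₂ : Set Q, I₂ = {b | ∃ a : J₂, (a : Q') ∈ J₂ ∧ g a = b} := ⟨_, rfl⟩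
    have hF₁ : Full (tq L Λ q) B χ I₁ := hI₁ ▸ hgf J₁ h12 hJ₁
    have hF₂ : Full (tq L Λ q) B χ I₂ := hI₂ ▸ hgf J₂ subset_rfl hJ₂
    have hI12 : I₁ ⊆ I₂ := by
      rw [hI₁, hI₂]
      rintro b ⟨a, ha, rfl⟩
      exact ⟨a, a.2, rfl⟩
    have hc₂ : #I₂ ≤ χ := by
      refine le_trans ?_ hJ₂c
      refine mk_le_of_surjective (f := fun a : J₂ => (⟨g a, by rw [hI₂]; exact ⟨a, a.2, rfl⟩⟩ : I₂)) ?_
      rintro ⟨b, hb⟩
      rw [hI₂] at hb
      obtain ⟨a, -, rfl⟩ := hb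
      exact ⟨a, rfl⟩
    have hc₁ : #I₁ ≤ χ := (mk_le_mk_of_subset hI12).trans hc₂
    have t₁ : K.Le (U L hq I₁) ⊤ :=
      full_le_top K Λ hM hq hs hf hχ hΛχ hLS hLc hPat (hBdef ▸ hF₁) hc₁
    have t₂ : K.Le (U L hq I₂) ⊤ :=
      full_le_top K Λ hM hq hs hf hχ hΛχ hLS hLc hPat (hBdef ▸ hF₂) hc₂
    have t₁₂ : K.Le (U L hq I₁) (U L hq I₂) := K.coherence (U_mono L hI12) t₁ t₂
    let e₀ : J₂ → I₂ := fun a => ⟨g a, by rw [hI₂]; exact ⟨a, a.2, rfl⟩⟩
    have he₀ : Function.Bijective e₀ := by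
      constructor
      · intro a b hab
        exact hg (congrArg Subtype.val hab)
      · rintro ⟨b, hb⟩
        have hb' := hb
        rw [hI₂] at hb'
        obtain ⟨a, -, rfl⟩ := hb'
        exact ⟨a, rfl⟩
    let e : J₂ ≃ I₂ := Equiv.ofBijective e₀ he₀
    have he : ∀ b : J₂, ((e b : I₂) : Q) = g b := fun b => rfl
    obtain ⟨x₀⟩ := hne
    have hJne : J₂.Nonempty := by
      by_cases hx : tq L Λ q' x₀ ∈ B
      · have h5 := hJ₂.2 _ hx
        have h6 : mult (tq L Λ q') J₂ (tq L Λ q' x₀) ≠ 0 :=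
          (lt_of_lt_of_le aleph0_pos (hχ.trans h5)).ne'
        obtain ⟨⟨y, hy⟩⟩ := mk_ne_zero_iff.1 h6
        exact ⟨y, hy.1⟩
      · exact ⟨x₀, hJ₂.1 x₀ hx⟩
    have hIne : I₂.Nonempty := by
      obtain ⟨y, hy⟩ := hJne
      exact ⟨_, (e ⟨y, hy⟩).2⟩
    refine le_transport K hq hq' (J₁ := I₁) (J₂ := I₂) (J₁' := J₁) (J₂' := J₂)
      (constSet_subset L Λ hf hχ hF₁) hI12 (constSet_subset L Λ hf' hχ hJ₁) h12 hIne e.symm ?_ ?_
      t₁₂
    · intro a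
      obtain ⟨b, rfl⟩ := e.surjective a
      rw [Equiv.symm_apply_apply, he]
      exact subIso_of_ty_eq L Λ (hf _) (hf' _) (hgt b)
    · intro a
      obtain ⟨b, rfl⟩ := e.surjective a
      rw [Equiv.symm_apply_apply, he, hI₁]
      constructor
      · intro hb
        exact ⟨b, hb, rfl⟩
      · rintro ⟨c, hc, hcb⟩
        rw [← hg hcb]
        exact hc
  have hfull : Full (tq L Λ q') B χ Set.univ :=
    ⟨fun _ _ => trivial, fun p hp => h2 p ((hmemB p).1 hp)⟩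
  have hle := full_le_full K Λ hq' hχ hPat hS hbase Set.univ Set.univ hfull subset_rfl
  have hmem := K.mem_left hle
  have htop : U L hq' Set.univ = ⊤ := by
    ext x
    simp [mem_U]
  rw [htop] at hmem
  exact K.mem_of_equiv Substructure.topEquiv hmem

end Vale.Agent.P307
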