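import Vale.Agent.P307.PB
import Vale.Agent.P307.ISO

/-! P307 module EX: structures with prescribed multiplicities. -/

open FirstOrder FirstOrder.Language FirstOrder.Language.Structure Cardinal

universe u

namespace Vale.Agent.P307

variable (L : Language.{u, u})

private theorem ex_mk_of_subIso {M N : Type u} [L.Structure M] [L.Structure N] {F : Set M}
    {G : Set N} (h : SubIso L F G) : #F = #G := by
  obtain ⟨e, -⟩ := h
  exact mk_congr e

private theorem ex_sigma_ext {P : Type u} (m : P → Cardinal.{u}) :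
    ∀ b b' : (Σ p : P, (m p).out), b.1 = b'.1 → m b.1 = 1 → b = b' := by
  rintro ⟨p, i⟩ ⟨p', i'⟩ h h1
  obtain rfl : p = p' := h
  have h2 : #((m p).out) ≤ 1 := by rw [mk_out]; exact h1.le
  have h3 : Subsingleton ((m p).out) := le_one_iff_subsingleton.1 h2
  rw [Subsingleton.elim i i']

private theorem ex_mult_sigma {P : Type u} (m : P → Cardinal.{u}) (T : (Σ p : P, (m p).out) → P)
    (hT : ∀ b, T b = b.1) (p : P) : mult T Set.univ p = m p := by
  unfold mult
  have e1 : {b : (Σ p : P, (m p).out) // b ∈ Set.univ ∧ T b = p} ≃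
      {b : (Σ p : P, (m p).out) // b.1 = p} :=
    Equiv.subtypeEquivRight (fun b => by simp [hT b])
  rw [mk_congr (e1.trans (Equiv.sigmaSubtype p)), mk_out]

/-- the empty structure -/
private theorem ex_empty (Λ : Type u) {M Q : Type u} [L.Structure M] {q : M → Q}
    (hc0 : constSet L q = ∅) (m : Pat L Λ → Cardinal.{u}) (hm : ∀ p, m p = 0) :
    ∃ (N Q' : Type u) (_ : L.Structure N) (q' : N → Q'), Pres L N Q' q' ∧
      (∀ a, #(q' ⁻¹' {a}) ≤ #Λ) ∧ ∀ p, mult (tq L Λ q') Set.univ p = m p := by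
  have hF0 : IsEmpty (L.Functions 0) := by
    refine ⟨fun c => ?_⟩
    have h : q (funMap c (fun k => k.elim0)) ∈ constSet L q := ⟨c, _, rfl⟩
    rw [hc0] at h
    exact h
  let S : L.Structure PEmpty.{u + 1} :=
    { funMap := fun {n} f v => match n, f, v with
        | 0, f, _ => (hF0.false f).elim
        | _ + 1, _, v => v 0
      RelMap := fun {_} _ _ => False }
  refine ⟨PEmpty.{u + 1}, PEmpty.{u + 1}, S, fun x => x, ⟨fun x => x.elim, fun x => x.elim,
    fun x => x.elim⟩, fun a => a.elim, fun p => ?_⟩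
  rw [hm p]
  unfold mult
  rw [mk_eq_zero_iff]
  exact ⟨fun x => x.1.elim⟩

/-- `Q' = Σ p, (m p).out`; for a type `p` with `m p ≠ 0` choose `r p ∈ Q` with
`tq L Λ q (r p) = p` (it exists by `hm`), `τ ⟨p, i⟩ = r p` (if `(m p).out` is nonempty then
`m p ≠ 0`; otherwise `τ` has nothing to do).  For a component `a` of a constant, `p = tq a` has
multiplicity `≤ 1` (`mult_const_le_one`), so `r p = a`, and `m p = 1`, so `s a` = the only element
over `p`.  Apply `exists_pullback` (`isEmpty_functions` for the arity hypothesis); fibre sizes and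
types by `SubIso` (`ty_eq_of_subIso`). -/
theorem exists_struct (Λ : Type u) {M Q : Type u} [L.Structure M] {q : M → Q}
    (hq : Pres L M Q q) (hf : ∀ a, #(q ⁻¹' {a}) ≤ #Λ) {a₀ b₀ : Q} (hab : a₀ ≠ b₀)
    (m : Pat L Λ → Cardinal.{u}) (hm : ∀ p, mult (tq L Λ q) Set.univ p = 0 → m p = 0)
    (hc : ∀ a ∈ constSet L q, m (tq L Λ q a) = 1) :
    ∃ (N Q' : Type u) (_ : L.Structure N) (q' : N → Q'), Pres L N Q' q' ∧
      (∀ a, #(q' ⁻¹' {a}) ≤ #Λ) ∧ ∀ p, mult (tq L Λ q') Set.univ p = m p := by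
  classical
  have hr : ∀ p, ∃ a : Q, m p ≠ 0 → tq L Λ q a = p := by
    intro p
    by_cases h0 : m p = 0
    · exact ⟨a₀, fun h => absurd h0 h⟩
    · have h1 : mult (tq L Λ q) Set.univ p ≠ 0 := fun h => h0 (hm p h)
      unfold mult at h1
      obtain ⟨a, -, ha⟩ := mk_ne_zero_iff.1 h1
      exact ⟨a, fun _ => ha⟩
  choose r hr using hr
  have hmi : ∀ (p : Pat L Λ) (_ : (m p).out), m p ≠ 0 := by
    intro p i
    have h : #((m p).out) ≠ 0 := mk_ne_zero_iff.2 ⟨i⟩
    rwa [mk_out] at h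
  by_cases hne : Nonempty (Σ p : Pat L Λ, (m p).out)
  · let τ : (Σ p : Pat L Λ, (m p).out) → Q := fun b => r b.1
    have hτ : ∀ b, tq L Λ q (τ b) = b.1 := fun b => hr b.1 (hmi b.1 b.2)
    have hs0 : ∀ a : Q, ∃ b : (Σ p : Pat L Λ, (m p).out), m (tq L Λ q a) ≠ 0 →
        b.1 = tq L Λ q a := by
      intro a
      by_cases h0 : m (tq L Λ q a) = 0
      · exact ⟨hne.some, fun h => absurd h0 h⟩
      · have h1 : #((m (tq L Λ q a)).out) ≠ 0 := by rw [mk_out]; exact h0
        obtain ⟨i⟩ := mk_ne_zero_iff.1 h1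
        exact ⟨⟨_, i⟩, fun _ => rfl⟩
    choose s hs using hs0
    have h1 : ∀ a ∈ constSet L q, τ (s a) = a := by
      intro a ha
      have e1 : (s a).1 = tq L Λ q a := hs a (by rw [hc a ha]; exact one_ne_zero)
      have e2 : tq L Λ q (τ (s a)) = tq L Λ q a := by rw [hτ, e1]
      have hle := mult_const_le_one L Λ hf ha
      unfold mult at hle
      have hsub := le_one_iff_subsingleton.1 hle
      have e3 : (⟨τ (s a), trivial, e2⟩ :
          {b : Q // b ∈ Set.univ ∧ tq L Λ q b = tq L Λ q a}) = ⟨a, trivial, rfl⟩ :=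
        Subsingleton.elim _ _
      exact congrArg Subtype.val e3
    have h2 : ∀ b, τ b ∈ constSet L q → b = s (τ b) := by
      intro b hb
      have e0 : m b.1 = 1 := by rw [← hτ b]; exact hc _ hb
      have e1 : (s (τ b)).1 = tq L Λ q (τ b) := hs (τ b) (by rw [hc _ hb]; exact one_ne_zero)
      exact ex_sigma_ext m b (s (τ b)) (by rw [e1, hτ]) e0
    obtain ⟨N, _, q', hq', hsub⟩ := exists_pullback L hq
      (isEmpty_functions L hq.resp hq.surj hab) τ s h1 h2
    refine ⟨N, _, inferInstance, q', hq', fun b => ?_, fun p => ?_⟩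
    · rw [ex_mk_of_subIso L (hsub b)]
      exact hf (τ b)
    · refine ex_mult_sigma m (tq L Λ q') (fun b => ?_) p
      have e : tq L Λ q' b = tq L Λ q (τ b) := ty_eq_of_subIso L Λ (hsub b)
      rw [e, hτ]
  · have hm0 : ∀ p, m p = 0 := by
      intro p
      by_contra h
      have h1 : #((m p).out) ≠ 0 := by rw [mk_out]; exact h
      obtain ⟨i⟩ := mk_ne_zero_iff.1 h1
      exact hne ⟨⟨p, i⟩⟩
    refine ex_empty L Λ (q := q) ?_ m hm0
    rw [Set.eq_empty_iff_forall_notMem]
    intro a ha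
    have := hc a ha
    rw [hm0] at this
    exact zero_ne_one this

end Vale.Agent.P307
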