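import Vale.Agent.P307.EP
import Vale.Agent.P307.EX

/-! P307: final assembly. -/

open FirstOrder FirstOrder.Language FirstOrder.Language.Structure Cardinal

universe u

namespace Vale.Agent.P307

variable {L : Language.{u, u}}

theorem exists_ne_of_lt {Q : Type u} {χ : Cardinal.{u}} (hχ : ℵ₀ ≤ χ) (h : χ < #Q) :
    ∃ a b : Q, a ≠ b := by
  have h1 : 1 < #Q := lt_of_lt_of_le one_lt_aleph0 (hχ.trans h.le)
  rw [one_lt_iff_nontrivial] at h1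
  exact exists_pair_ne Q

theorem modify (K : AEC L) (Λ : Type u) {χ : Cardinal.{u}} (hχ : ℵ₀ ≤ χ) (hΛ0 : ℵ₀ ≤ #Λ)
    (hΛχ : #Λ ≤ χ) (hLS : K.LS ≤ χ) (hLc : L.card ≤ χ) (hPat : #(Pat L Λ) ≤ χ)
    {κ : Cardinal.{u}} (hκ : χ < κ) {M Q : Type u} [L.Structure M] (hM : K.Mem M) {q : M → Q}
    (hq : Pres L M Q q) (hf : ∀ a, #(q ⁻¹' {a}) ≤ #Λ) (t : Pat L Λ)
    (ht : χ < mult (tq L Λ q) Set.univ t) :
    ∃ (N Q' : Type u) (_ : L.Structure N) (q' : N → Q'), Pres L N Q' q' ∧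
      (∀ a, #(q' ⁻¹' {a}) ≤ #Λ) ∧ K.Mem N ∧ #N = κ ∧
      (∀ p, χ < mult (tq L Λ q) Set.univ p → p ≠ t → mult (tq L Λ q') Set.univ p = χ) ∧
      mult (tq L Λ q') Set.univ t = κ ∧
      (∀ p, mult (tq L Λ q) Set.univ p ≤ χ →
        mult (tq L Λ q') Set.univ p = mult (tq L Λ q) Set.univ p) := by
  classical
  have hQ : χ < #Q := by
    refine ht.trans_le ?_
    exact mk_le_of_injective (f := fun x : {a : Q // a ∈ Set.univ ∧ tq L Λ q a = t} => x.1)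
      Subtype.val_injective
  obtain ⟨a₀, b₀, hab⟩ := exists_ne_of_lt hχ hQ
  set m : Pat L Λ → Cardinal.{u} := fun p =>
    if mult (tq L Λ q) Set.univ p ≤ χ then mult (tq L Λ q) Set.univ p
    else if p = t then κ else χ with hm
  have hm1 : ∀ p, mult (tq L Λ q) Set.univ p ≤ χ → m p = mult (tq L Λ q) Set.univ p := by
    intro p hp
    simp only [hm, if_pos hp]
  have hm2 : m t = κ := by
    simp only [hm, if_neg (not_le.2 ht), if_true]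
  have hm3 : ∀ p, χ < mult (tq L Λ q) Set.univ p → p ≠ t → m p = χ := by
    intro p hp hpt
    simp only [hm, if_neg (not_le.2 hp), if_neg hpt]
  have hχ1 : (1 : Cardinal.{u}) ≤ χ := one_lt_aleph0.le.trans hχ
  obtain ⟨N, Q', hN, q', hq', hf', hmul⟩ := exists_struct L Λ hq hf hab m
    (fun p hp => by rw [hm1 p (by rw [hp]; exact zero_le), hp])
    (fun a ha => by
      have h1 := mult_const_le_one L Λ hf ha
      rw [hm1 _ (h1.trans hχ1)]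
      refine le_antisymm h1 ?_
      rw [Cardinal.one_le_iff_ne_zero]
      exact mk_ne_zero_iff.2 ⟨⟨a, trivial, rfl⟩⟩)
  have hQ' : #Q' = κ := by
    refine mk_of_mult (T := tq L Λ q') hχ hPat hκ.le t (by rw [hmul, hm2]) ?_
    intro p hp
    rw [hmul]
    by_cases h : mult (tq L Λ q) Set.univ p ≤ χ
    · rw [hm1 p h]; exact h
    · rw [hm3 p (not_le.1 h) hp]
  have hNκ : #N = κ := (mk_index hq'.surj hΛ0 hf' (hΛχ.trans_lt hκ)).2 hQ'
  have hne : Nonempty Q' := by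
    rw [← mk_ne_zero_iff, hQ']
    exact (lt_of_le_of_lt (zero_le) hκ).ne'
  refine ⟨N, Q', hN, q', hq', hf', ?_, hNκ, ?_, ?_, ?_⟩
  · refine mem_of_mult K Λ hχ hΛχ hLS hLc hPat hM hq.resp hq.surj hf hq'.resp hq'.surj hf' hne ?_ ?_
    · intro p hp
      rw [hmul, hm1 p hp]
    · intro p hp
      rw [hmul]
      by_cases hpt : p = t
      · rw [hpt, hm2]; exact hκ.le
      · rw [hm3 p hp hpt]
  · intro p hp hpt
    rw [hmul, hm3 p hp hpt]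
  · rw [hmul, hm2]
  · intro p hp
    rw [hmul, hm1 p hp]

theorem transfer (K : AEC L) {l : Cardinal.{u}} (hl : ℵ₀ ≤ l) (hL : L.card ≤ l)
    (hLS : K.LS ≤ l)
    (hb : ∀ (M : Type u) [L.Structure M], K.Mem M → ∀ x : M, #(component L x) ≤ l)
    {κ κ' : Cardinal.{u}} (hκ : 2 ^ l < κ) (hκ' : 2 ^ l < κ') (h : K.Categorical κ) :
    K.Categorical κ' := by
  classical
  obtain ⟨χ, hχdef⟩ : ∃ χ : Cardinal.{u}, χ = 2 ^ l := ⟨_, rfl⟩
  rw [← hχdef] at hκ hκ'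
  obtain ⟨Λ, hΛ⟩ : ∃ Λ : Type u, #Λ = l := ⟨l.out, mk_out l⟩
  have hlχ : l ≤ χ := by rw [hχdef]; exact (cantor l).le
  have hχ : ℵ₀ ≤ χ := hl.trans hlχ
  have hPat : #(Pat L Λ) ≤ χ := by
    rw [hχdef, ← hΛ]
    exact mk_pat_le L Λ (hΛ ▸ hl) (hΛ ▸ hL)
  have hΛ0 : ℵ₀ ≤ #Λ := hΛ ▸ hl
  have hΛχ : #Λ ≤ χ := hΛ ▸ hlχ
  have hLSχ : K.LS ≤ χ := hLS.trans hlχ
  have hLχ : L.card ≤ χ := hL.trans hlχ
  -- canonical presentations
  have pres : ∀ (N : Type u) [L.Structure N], K.Mem N → ∃ (Q : Type u) (q : N → Q),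
      Pres L N Q q ∧ ∀ a, #(q ⁻¹' {a}) ≤ #Λ := by
    intro N _ hN
    obtain ⟨Q, q, hq, hc⟩ := exists_pres L N
    refine ⟨Q, q, hq, fun a => ?_⟩
    obtain ⟨x, rfl⟩ := hq.surj a
    rw [hc x, hΛ]
    exact hb N hN x
  have mod := fun {κ₁ : Cardinal.{u}} (hκ₁ : χ < κ₁) {N Q : Type u} [L.Structure N]
    (hN : K.Mem N) {q : N → Q} (hq : Pres L N Q q) (hf : ∀ a, #(q ⁻¹' {a}) ≤ #Λ) (t : Pat L Λ)
    (ht : χ < mult (tq L Λ q) Set.univ t) =>
    modify K Λ hχ hΛ0 hΛχ hLSχ hLχ hPat hκ₁ hN hq hf t ht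
  obtain ⟨⟨M, iM, hM, hMκ⟩, huniq⟩ := h
  obtain ⟨Q, q, hq, hf⟩ := pres M hM
  have hQ : #Q = κ := (mk_index hq.surj hΛ0 hf (hΛχ.trans_lt hκ)).1 hMκ
  -- the key comparison
  have key : ∀ (N R : Type u) [L.Structure N] (r : N → R), K.Mem N → Pres L N R r →
      (∀ a, #(r ⁻¹' {a}) ≤ #Λ) → ∀ t, χ < mult (tq L Λ r) Set.univ t →
      mult (tq L Λ q) Set.univ t = κ ∧
      (∀ p, χ < mult (tq L Λ r) Set.univ p → p ≠ t → mult (tq L Λ q) Set.univ p = χ) ∧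
      (∀ p, mult (tq L Λ r) Set.univ p ≤ χ →
        mult (tq L Λ q) Set.univ p = mult (tq L Λ r) Set.univ p) := by
    intro N R _ r hN hr hfr t ht
    obtain ⟨N', R', iN', r', hr', hfr', hN', hN'κ, h1, h2, h3⟩ := mod hκ hN hr hfr t ht
    obtain ⟨e⟩ := huniq M N' hM hN' hMκ hN'κ
    have he := mult_eq_of_equiv L Λ hq hr' e
    refine ⟨by rw [he, h2], fun p hp hpt => by rw [he, h1 p hp hpt],
      fun p hp => by rw [he, h3 p hp]⟩
  obtain ⟨t, ht⟩ := exists_big (tq L Λ q) hχ hPat (by rw [hQ]; exact hκ)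
  have hsmall : ∀ p, p ≠ t → mult (tq L Λ q) Set.univ p ≤ χ := by
    intro p hpt
    by_contra hp
    have := (key M Q q hM hq hf t ht).2.1 p (not_le.1 hp) hpt
    exact hp this.le
  -- multiplicities of an arbitrary member of size `κ'`
  have shape : ∀ (N R : Type u) [L.Structure N] (r : N → R), K.Mem N → #N = κ' →
      Pres L N R r → (∀ a, #(r ⁻¹' {a}) ≤ #Λ) →
      ∀ p, mult (tq L Λ r) Set.univ p = if p = t then κ' else mult (tq L Λ q) Set.univ p := by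
    intro N R _ r hN hNκ hr hfr
    have hR : #R = κ' := (mk_index hr.surj hΛ0 hfr (hΛχ.trans_lt hκ')).1 hNκ
    have hbig : ∀ s, χ < mult (tq L Λ r) Set.univ s → s = t := by
      intro s hs
      by_contra hst
      have h1 := (key N R r hN hr hfr s hs).1
      have h2 := hsmall s hst
      rw [h1] at h2
      exact absurd hκ (not_lt.2 h2)
    obtain ⟨s, hs⟩ := exists_big (tq L Λ r) hχ hPat (by rw [hR]; exact hκ')
    obtain rfl := hbig s hs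
    have hsm : ∀ p, p ≠ s → mult (tq L Λ r) Set.univ p ≤ χ := by
      intro p hp
      by_contra hc
      exact hp (hbig p (not_le.1 hc))
    intro p
    split_ifs with hp
    · rw [hp]
      exact mult_of_mk hχ hPat hκ' s hR hsm
    · exact ((key N R r hN hr hfr s hs).2.2 p (hsm p hp)).symm
  refine ⟨?_, ?_⟩
  · obtain ⟨N, R, iN, r, hr, hfr, hN, hNκ, -⟩ := mod hκ' hM hq hf t ht
    exact ⟨N, iN, hN, hNκ⟩
  · intro N₁ N₂ _ _ hN₁ hN₂ hc₁ hc₂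
    obtain ⟨R₁, r₁, hr₁, hf₁⟩ := pres N₁ hN₁
    obtain ⟨R₂, r₂, hr₂, hf₂⟩ := pres N₂ hN₂
    have hR₁ : #R₁ = κ' := (mk_index hr₁.surj hΛ0 hf₁ (hΛχ.trans_lt hκ')).1 hc₁
    have hne : Nonempty R₁ := by
      rw [← mk_ne_zero_iff, hR₁]
      exact (lt_of_le_of_lt (zero_le) hκ').ne'
    refine equiv_of_mult_eq L Λ hr₁.resp hr₂.resp hf₁ hf₂ hne ?_
    intro p
    rw [shape N₁ R₁ r₁ hN₁ hc₁ hr₁ hf₁ p, shape N₂ R₂ r₂ hN₂ hc₂ hr₂ hf₂ p]

end Vale.Agent.P307
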