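import Vale.Agent.P307.Types

open FirstOrder FirstOrder.Language FirstOrder.Language.Structure Cardinal

universe u

namespace Vale.Agent.P307

variable (L : Language.{u, u})

section Glue

variable {M N Q Q' : Type u} [L.Structure M] [L.Structure N]

def Resp (q : M → Q) : Prop := ∀ x y, Adj L x y → q x = q y

theorem Resp.rel {q : M → Q} (hq : Resp L q) {n : ℕ} (R : L.Relations n) (v : Fin n → M)
    (h : RelMap R v) (i j : Fin n) : q (v i) = q (v j) :=
  hq _ _ (Or.inl ⟨n, R, v, h, ⟨i, rfl⟩, ⟨j, rfl⟩⟩)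

theorem Resp.fn {q : M → Q} (hq : Resp L q) {n : ℕ} (f : L.Functions n) (v : Fin n → M)
    (i : Fin n) : q (v i) = q (funMap f v) :=
  hq _ _ (Or.inr ⟨n, f, v, Set.mem_insert_of_mem _ ⟨i, rfl⟩, Set.mem_insert _ _⟩)

theorem exists_equiv_of_subIso [Nonempty Q] {q : M → Q} {q' : N → Q'} (hq : Resp L q)
    (hq' : Resp L q') (σ : Q ≃ Q')
    (h : ∀ a, SubIso L (q ⁻¹' {a}) (q' ⁻¹' {σ a})) :
    ∃ e : M ≃[L] N, ∀ x, q' (e x) = σ (q x) := by
  choose E hR hf using h
  let g : M → N := fun x => (E (q x) ⟨x, rfl⟩ : N)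
  let g' : N → M := fun y => ((E (σ.symm (q' y))).symm ⟨y, by simp⟩ : M)
  have hg : ∀ (a : Q) (x : M) (hx : q x = a), g x = (E a ⟨x, hx⟩ : N) := by
    rintro a x rfl; rfl
  have hqg : ∀ x, q' (g x) = σ (q x) := fun x => (E (q x) ⟨x, rfl⟩).2
  have hg' : ∀ (a : Q) (y : N) (hy : q' y = σ a), g' y = ((E a).symm ⟨y, hy⟩ : M) := by
    intro a y hy
    have : σ.symm (q' y) = a := by rw [hy, σ.symm_apply_apply]
    subst this
    rfl
  have hqg' : ∀ y, q (g' y) = σ.symm (q' y) :=
    fun y => ((E (σ.symm (q' y))).symm ⟨y, by simp⟩).2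
  have hl : Function.LeftInverse g' g := by
    intro x
    rw [hg' (q x) (g x) (hqg x)]
    have : (⟨g x, hqg x⟩ : q' ⁻¹' {σ (q x)}) = E (q x) ⟨x, rfl⟩ := rfl
    rw [this, Equiv.symm_apply_apply]
  have hr : Function.RightInverse g' g := by
    intro y
    rw [hg (σ.symm (q' y)) (g' y) (hqg' y)]
    have : (⟨g' y, hqg' y⟩ : q ⁻¹' {σ.symm (q' y)}) =
      (E (σ.symm (q' y))).symm ⟨y, by simp⟩ := rfl
    rw [this]
    exact congrArg Subtype.val (Equiv.apply_symm_apply (E (σ.symm (q' y))) ⟨y, by simp⟩)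
  have hrel : ∀ {n : ℕ} (R : L.Relations n) (v : Fin n → M) (a : Q), (∀ k, q (v k) = a) →
      (RelMap R v ↔ RelMap R (g ∘ v)) := by
    intro n R v a hv
    have := hR a n R (fun k => ⟨v k, hv k⟩)
    simp only at this
    rw [this]
    have h2 : g ∘ v = fun k => (E a ⟨v k, hv k⟩ : N) := by
      funext k; exact hg a (v k) (hv k)
    rw [h2]
  refine ⟨⟨⟨g, g', hl, hr⟩, ?_, ?_⟩, hqg⟩
  · intro n f v
    have hv : ∀ k, q (v k) = q (funMap f v) := fun k => hq.fn L f v k
    have := (hf (q (funMap f v)) n f (fun k => ⟨v k, hv k⟩) ⟨funMap f v, rfl⟩).1 rfl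
    have h2 : g ∘ v = fun k => (E (q (funMap f v)) ⟨v k, hv k⟩ : N) := by
      funext k; exact hg _ (v k) (hv k)
    change g (funMap f v) = funMap f (g ∘ v)
    rw [h2, this]
  · intro n R v
    change RelMap R (g ∘ v) ↔ RelMap R v
    by_cases hn : n = 0
    · subst hn
      exact (hrel R v (Classical.arbitrary Q) (fun k => k.elim0)).symm
    · have k0 : Fin n := ⟨0, Nat.pos_of_ne_zero hn⟩
      constructor
      · intro h
        have : ∀ k, q (v k) = q (v k0) := by
          intro k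
          have := hq'.rel L R (g ∘ v) h k k0
          simp only [Function.comp_apply, hqg] at this
          exact σ.injective this
        exact (hrel R v _ this).2 h
      · intro h
        exact (hrel R v _ (fun k => hq.rel L R v h k k0)).1 h

end Glue

section U

variable {M Q : Type u} [L.Structure M]

def constSet (q : M → Q) : Set Q := {a | ∃ (c : L.Functions 0) (v : Fin 0 → M), q (funMap c v) = a}

theorem mk_constSet_le (q : M → Q) : #(constSet L q) ≤ L.card := by
  have h1 : #(constSet L q) ≤ #(L.Functions 0) := by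
    have : Function.Surjective (fun c : L.Functions 0 =>
        (⟨q (funMap c default), c, default, rfl⟩ : constSet L q)) := by
      rintro ⟨a, c, v, rfl⟩
      exact ⟨c, Subtype.ext (by rw [Subsingleton.elim default v])⟩
    exact mk_le_of_surjective this
  have h2 : #(L.Functions 0) ≤ L.card := by
    have : Function.Injective (fun c : L.Functions 0 => (Sum.inl ⟨0, c⟩ : L.Symbols)) := by
      intro c c' h
      simpa using h
    exact mk_le_of_injective this
  exact h1.trans h2

def U {q : M → Q} (hq : Resp L q) (J : Set Q) : L.Substructure M where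
  carrier := {x | q x ∈ J ∪ constSet L q}
  fun_mem := by
    intro n f v hv
    cases n with
    | zero => exact Or.inr ⟨f, v, rfl⟩
    | succ n =>
      have h := hv 0
      change q (v 0) ∈ J ∪ constSet L q at h
      rw [hq.fn L f v 0] at h
      exact h

theorem mem_U {q : M → Q} {hq : Resp L q} {J : Set Q} {x : M} :
    x ∈ U L hq J ↔ q x ∈ J ∪ constSet L q := Iff.rfl

theorem mem_U' {q : M → Q} {hq : Resp L q} {J : Set Q} (hJ : constSet L q ⊆ J) {x : M} :
    x ∈ U L hq J ↔ q x ∈ J := by rw [mem_U, Set.union_eq_left.2 hJ]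

theorem U_mono {q : M → Q} {hq : Resp L q} {J J' : Set Q} (h : J ⊆ J') :
    U L hq J ≤ U L hq J' := fun _ hx => (Set.union_subset_union_left _ h) hx

theorem iSup_U {q : M → Q} {hq : Resp L q} {ι : Type u} [LinearOrder ι] [Nonempty ι]
    (J : ι → Set Q) (hJ : Monotone J) :
    (⨆ i, U L hq (J i)) = U L hq (⋃ i, J i) := by
  apply le_antisymm
  · exact iSup_le fun i => U_mono L (Set.subset_iUnion J i)
  · intro x hx
    rcases hx with hx | hx
    · obtain ⟨i, hi⟩ := Set.mem_iUnion.1 hx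
      exact (le_iSup (fun i => U L hq (J i)) i) (Or.inl hi)
    · exact (le_iSup (fun i => U L hq (J i)) (Classical.arbitrary ι)) (Or.inr hx)

def qres {q : M → Q} (hq : Resp L q) (J : Set Q) (hJ : constSet L q ⊆ J) :
    U L hq J → J := fun x => ⟨q x, (mem_U' L hJ).1 x.2⟩

theorem adj_coe (S : L.Substructure M) {x y : S} (h : Adj L x y) : Adj L (x : M) (y : M) := by
  rcases h with ⟨n, R, v, hR, ⟨i, hi⟩, ⟨j, hj⟩⟩ | ⟨n, f, v, hx, hy⟩
  · left
    exact ⟨n, R, fun k => (v k : M), hR, ⟨i, by rw [← hi]⟩, ⟨j, by rw [← hj]⟩⟩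
  · right
    refine ⟨n, f, fun k => (v k : M), ?_, ?_⟩
    · rcases hx with hx | ⟨i, hi⟩
      · left; rw [hx]; rfl
      · right; exact ⟨i, by rw [← hi]⟩
    · rcases hy with hy | ⟨i, hi⟩
      · left; rw [hy]; rfl
      · right; exact ⟨i, by rw [← hi]⟩

theorem resp_qres {q : M → Q} (hq : Resp L q) (J : Set Q) (hJ : constSet L q ⊆ J) :
    Resp L (qres L hq J hJ) := fun x y h => Subtype.ext (hq _ _ (adj_coe L _ h))

theorem constSet_qres {q : M → Q} (hq : Resp L q) (J : Set Q) (hJ : constSet L q ⊆ J) :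
    constSet L (qres L hq J hJ) = {a : J | (a : Q) ∈ constSet L q} := by
  apply Set.ext
  intro a
  constructor
  · rintro ⟨c, v, h⟩
    exact ⟨c, fun k => (v k : M), congrArg Subtype.val h⟩
  · rintro ⟨c, v, h⟩
    refine ⟨c, fun k => k.elim0, Subtype.ext ?_⟩
    rw [← h, Subsingleton.elim v (fun k => ((fun k => k.elim0 : Fin 0 → U L hq J) k : M))]
    rfl

theorem subIso_fiber_qres {q : M → Q} (hq : Resp L q) (J : Set Q) (hJ : constSet L q ⊆ J)
    (a : J) : SubIso L (qres L hq J hJ ⁻¹' {a}) (q ⁻¹' {(a : Q)}) := by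
  have h := subIso_preimage L (U L hq J) (q ⁻¹' {(a : Q)}) (by
    intro x hx
    refine (mem_U' L hJ).2 ?_
    rw [Set.mem_preimage, Set.mem_singleton_iff] at hx
    rw [hx]; exact a.2)
  have h2 : (((↑) : U L hq J → M) ⁻¹' (q ⁻¹' {(a : Q)})) = qres L hq J hJ ⁻¹' {a} := by
    ext x
    simp only [Set.mem_preimage, Set.mem_singleton_iff, qres, Subtype.ext_iff]
  rw [h2] at h
  exact h

end U

end Vale.Agent.P307
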