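import Vale.Agent.P307.PDefs

/-! P307 module PB: the structure with prescribed copies of components. -/

open FirstOrder FirstOrder.Language FirstOrder.Language.Structure Cardinal

universe u

namespace Vale.Agent.P307

variable (L : Language.{u, u})

/-- the carrier of the pulled back structure -/
abbrev PBN {M Q Q' : Type u} (q : M → Q) (τ : Q' → Q) : Type u :=
  {z : Q' × M // τ z.1 = q z.2}

/-- interpretation of the function symbols in the pulled back structure -/
def pbFun {M Q Q' : Type u} [L.Structure M] {q : M → Q} (hq : Pres L M Q q)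
    (hfun : ∀ n, IsEmpty (L.Functions (n + 2))) (τ : Q' → Q) (s : Q → Q')
    (hs : ∀ a ∈ constSet L q, τ (s a) = a) :
    ∀ {n : ℕ}, L.Functions n → (Fin n → PBN q τ) → PBN q τ
  | 0, c, v => ⟨(s (q (funMap c (fun k => (v k).1.2))), funMap c (fun k => (v k).1.2)),
      hs _ ⟨c, _, rfl⟩⟩
  | 1, f, v => ⟨((v 0).1.1, funMap f (fun k => (v k).1.2)),
      (v 0).2.trans (hq.resp.fn L f (fun k => (v k).1.2) 0)⟩
  | (n + 2), f, _ => ((hfun n).false f).elim

/-- the pulled back structure -/
@[reducible] def pbStr {M Q Q' : Type u} [L.Structure M] {q : M → Q} (hq : Pres L M Q q)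
    (hfun : ∀ n, IsEmpty (L.Functions (n + 2))) (τ : Q' → Q) (s : Q → Q')
    (hs : ∀ a ∈ constSet L q, τ (s a) = a) : L.Structure (PBN q τ) where
  funMap := pbFun L hq hfun τ s hs
  RelMap := fun R v => RelMap R (fun k => (v k).1.2) ∧ ∀ i j, (v i).1.1 = (v j).1.1

/-- `N = {z : Q' × M // τ z.1 = q z.2}`, `q' z = z.1`.
Constants: `c` is `(s (q c), c)`.  Unary functions: `f (b, x) = (b, f x)` (`q (f x) = q x`).
There are no functions of arity `≥ 2`.  Relations: `R v` iff `R (snd ∘ v)` in `M` and all the
first components of `v` are equal.  `Pres`: a relation or function edge of `M` inside a fibre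
lifts to `N`.  The fibre of `b` is isomorphic to the fibre of `τ b` by `z ↦ z.2` (for the
constants use `hs`, `hs'`). -/
theorem exists_pullback {M Q Q' : Type u} [L.Structure M] {q : M → Q} (hq : Pres L M Q q)
    (hfun : ∀ n, IsEmpty (L.Functions (n + 2))) (τ : Q' → Q) (s : Q → Q')
    (hs : ∀ a ∈ constSet L q, τ (s a) = a) (hs' : ∀ b, τ b ∈ constSet L q → b = s (τ b)) :
    ∃ (N : Type u) (_ : L.Structure N) (q' : N → Q'), Pres L N Q' q' ∧
      ∀ b, SubIso L (q' ⁻¹' {b}) (q ⁻¹' {τ b}) := by
  let st : L.Structure (PBN q τ) := pbStr L hq hfun τ s hs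
  have hf0 : ∀ (c : L.Functions 0) (v : Fin 0 → PBN q τ), (funMap c v).1 =
      (s (q (funMap c (fun k => (v k).1.2))), funMap c (fun k => (v k).1.2)) := fun c v => rfl
  have hf1 : ∀ (f : L.Functions 1) (v : Fin 1 → PBN q τ), (funMap f v).1 =
      ((v 0).1.1, funMap f (fun k => (v k).1.2)) := fun f v => rfl
  have hR : ∀ {n : ℕ} (R : L.Relations n) (v : Fin n → PBN q τ), RelMap R v ↔
      (RelMap R (fun k => (v k).1.2) ∧ ∀ i j, (v i).1.1 = (v j).1.1) := fun R v => Iff.rfl
  refine ⟨PBN q τ, st, fun z => z.1.1, ⟨?_, ?_, ?_⟩, ?_⟩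
  · -- Resp
    rintro x y (⟨n, R, v, hv, ⟨i, rfl⟩, ⟨j, rfl⟩⟩ | ⟨n, f, v, hx, hy⟩)
    · exact ((hR R v).1 hv).2 i j
    · match n, f, v, hx, hy with
      | 0, f, v, hx, hy =>
        have hx' : x = funMap f v := by
          rcases hx with h | ⟨i, _⟩
          · exact h
          · exact i.elim0
        have hy' : y = funMap f v := by
          rcases hy with h | ⟨i, _⟩
          · exact h
          · exact i.elim0
        rw [hx', hy']
      | 1, f, v, hx, hy =>
        have key : ∀ z ∈ insert (funMap f v) (Set.range v), z.1.1 = (v 0).1.1 := by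
          rintro z (h | ⟨i, rfl⟩)
          · rw [h, hf1]
          · rw [Subsingleton.elim i 0]
        exact (key x hx).trans (key y hy).symm
      | (n + 2), f, v, hx, hy => exact ((hfun n).false f).elim
  · -- surjective
    intro b
    obtain ⟨x, hx⟩ := hq.surj (τ b)
    exact ⟨⟨(b, x), hx.symm⟩, rfl⟩
  · -- connected
    have key : ∀ m m' : M, Relation.EqvGen (Adj L) m m' → ∀ (b : Q') (h : τ b = q m)
        (h' : τ b = q m'), Relation.EqvGen (Adj L) (⟨(b, m), h⟩ : PBN q τ) ⟨(b, m'), h'⟩ := by
      intro m m' hmm
      induction hmm with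
      | rel m m' hadj =>
        intro b h h'
        rcases hadj with ⟨n, R, v, hv, ⟨i, hi⟩, ⟨j, hj⟩⟩ | ⟨n, f, v, hx, hy⟩
        · have hq' : ∀ k, τ b = q (v k) := by
            intro k
            rw [h, ← hi]
            exact hq.resp.rel L R v hv i k
          refine Relation.EqvGen.rel _ _ (Or.inl ⟨n, R, fun k => ⟨(b, v k), hq' k⟩, ?_, ⟨i, ?_⟩, ⟨j, ?_⟩⟩)
          · exact (hR R _).2 ⟨hv, fun _ _ => rfl⟩
          · exact Subtype.ext (Prod.ext rfl hi)
          · exact Subtype.ext (Prod.ext rfl hj)
        · match n, f, v, hx, hy with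
          | 0, f, v, hx, hy =>
            have hx' : m = funMap f v := by
              rcases hx with h | ⟨i, _⟩
              · exact h
              · exact i.elim0
            have hy' : m' = funMap f v := by
              rcases hy with h | ⟨i, _⟩
              · exact h
              · exact i.elim0
            have : m = m' := hx'.trans hy'.symm
            subst this
            exact Relation.EqvGen.refl _
          | 1, f, v, hx, hy =>
            have hq0 : q m = q (v 0) := by
              rcases hx with h | ⟨i, rfl⟩
              · rw [h]; exact (hq.resp.fn L f v 0).symm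
              · rw [Subsingleton.elim i 0]
            have hq' : ∀ k, τ b = q (v k) := by
              intro k
              rw [h, hq0, Subsingleton.elim k 0]
            have hF : (funMap f (fun k => (⟨(b, v k), hq' k⟩ : PBN q τ))).1 = (b, funMap f v) := hf1 f _
            refine Relation.EqvGen.rel _ _ (Or.inr ⟨1, f, fun k => ⟨(b, v k), hq' k⟩, ?_, ?_⟩)
            · rcases hx with h | ⟨i, hi⟩
              · left
                exact Subtype.ext (hF.symm ▸ (Prod.ext rfl h))
              · right
                exact ⟨i, Subtype.ext (Prod.ext rfl hi)⟩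
            · rcases hy with h | ⟨i, hi⟩
              · left
                exact Subtype.ext (hF.symm ▸ (Prod.ext rfl h))
              · right
                exact ⟨i, Subtype.ext (Prod.ext rfl hi)⟩
          | (n + 2), f, v, hx, hy => exact ((hfun n).false f).elim
      | refl m => intro b h h'; exact Relation.EqvGen.refl _
      | symm m m' _ ih => intro b h h'; exact Relation.EqvGen.symm _ _ (ih b h' h)
      | trans m m' m'' h1 h2 ih1 ih2 =>
        intro b h h'
        have hmid : q m = q m' := by
          have : ∀ a c : M, Relation.EqvGen (Adj L) a c → q a = q c := by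
            intro a c hac
            induction hac with
            | rel a c h => exact hq.resp a c h
            | refl a => rfl
            | symm a c _ ih => exact ih.symm
            | trans a c d _ _ i1 i2 => exact i1.trans i2
          exact this m m' h1
        exact Relation.EqvGen.trans _ _ _ (ih1 b h (h.trans hmid)) (ih2 b (h.trans hmid) h')
    rintro ⟨⟨b, m⟩, h⟩ ⟨⟨b', m'⟩, h'⟩ hbb
    have hb : b = b' := hbb
    subst hb
    exact key m m' (hq.conn m m' (h.symm.trans h')) b h h'
  · -- fibres
    intro b
    refine ⟨⟨fun z => ⟨z.1.1.2, ?_⟩, fun x => ⟨⟨(b, x.1), ?_⟩, ?_⟩, ?_, ?_⟩, ?_, ?_⟩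
    · have h1 : z.1.1.1 = b := z.2
      have h2 := z.1.2
      show q z.1.1.2 = τ b
      rw [← h2, h1]
    · exact (x.2 : q x.1 = τ b).symm
    · rfl
    · intro z
      have h1 : z.1.1.1 = b := z.2
      exact Subtype.ext (Subtype.ext (Prod.ext h1.symm rfl))
    · intro x
      rfl
    · intro n R v
      rw [hR]
      constructor
      · exact fun h => h.1
      · intro h
        refine ⟨h, fun i j => ?_⟩
        exact ((v i).2 : (v i).1.1.1 = b).trans ((v j).2 : (v j).1.1.1 = b).symm
    · intro n f v x
      have hxb : x.1.1.1 = b := x.2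
      have hxq : τ x.1.1.1 = q x.1.1.2 := x.1.2
      match n, f, v with
      | 0, f, v =>
        constructor
        · intro h
          have := congrArg (fun z : PBN q τ => z.1.2) h
          exact this
        · intro h
          have h' : funMap f (fun k => ((v k).1.1.2 : M)) = x.1.1.2 := h
          refine Subtype.ext ?_
          rw [hf0]
          refine Prod.ext ?_ h'
          show s (q (funMap f (fun k => ((v k).1.1.2 : M)))) = x.1.1.1
          have hc : τ x.1.1.1 ∈ constSet L q := ⟨f, _, by rw [hxq, h']⟩
          rw [h', ← hxq]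
          exact (hs' _ hc).symm
      | 1, f, v =>
        constructor
        · intro h
          have := congrArg (fun z : PBN q τ => z.1.2) h
          exact this
        · intro h
          have h' : funMap f (fun k => ((v k).1.1.2 : M)) = x.1.1.2 := h
          refine Subtype.ext ?_
          rw [hf1]
          exact Prod.ext (((v 0).2 : (v 0).1.1.1 = b).trans hxb.symm) h'
      | (n + 2), f, v => exact ((hfun n).false f).elim

end Vale.Agent.P307
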