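import Vale.Agent.P307.Glue

/-!
# P307, bounded components: definitions for the second half of the proof

`T : Q → P` is a typing of an index set.  `mult T J p` is the number of elements of `J` of type
`p`.  `Full T B χ J`: `J` contains all indices whose type is not in `B`, and at least `χ` indices
of every type in `B`.
-/

open FirstOrder FirstOrder.Language FirstOrder.Language.Structure Cardinal

universe u

namespace Vale.Agent.P307

section Comb

variable {Q P : Type u}

/-- the number of elements of `J` of type `p` -/
def mult (T : Q → P) (J : Set Q) (p : P) : Cardinal.{u} := #{a : Q // a ∈ J ∧ T a = p}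

/-- `J` contains all elements whose type is not in `B` and at least `χ` elements of each type
in `B` -/
def Full (T : Q → P) (B : Set P) (χ : Cardinal.{u}) (J : Set Q) : Prop :=
  (∀ a, T a ∉ B → a ∈ J) ∧ ∀ p ∈ B, χ ≤ mult T J p

theorem mult_mono (T : Q → P) {J J' : Set Q} (h : J ⊆ J') (p : P) : mult T J p ≤ mult T J' p :=
  mk_le_of_injective (f := fun x : {a : Q // a ∈ J ∧ T a = p} =>
    (⟨x.1, h x.2.1, x.2.2⟩ : {a : Q // a ∈ J' ∧ T a = p})) fun x y hxy => by
      simpa [Subtype.ext_iff] using hxy

theorem Full.mono {T : Q → P} {B : Set P} {χ : Cardinal.{u}} {J J' : Set Q}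
    (h : Full T B χ J) (hJ : J ⊆ J') : Full T B χ J' :=
  ⟨fun a ha => hJ (h.1 a ha), fun p hp => (h.2 p hp).trans (mult_mono T hJ p)⟩

end Comb

variable (L : Language.{u, u})

/-- `q : M → Q` is (up to renaming the indices) the map to the connected components of `M` -/
structure Pres (M Q : Type u) [L.Structure M] (q : M → Q) : Prop where
  resp : Resp L q
  surj : Function.Surjective q
  conn : ∀ x y, q x = q y → Relation.EqvGen (Adj L) x y

/-- the isomorphism type of the fibre of `q` over `a` -/
noncomputable def tq (Λ : Type u) {M Q : Type u} [L.Structure M] (q : M → Q) (a : Q) : Pat L Λ :=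
  ty L Λ (q ⁻¹' {a})

end Vale.Agent.P307
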