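import Vale.Agent.P307.PDefs

/-! P307 module TR: transport of `Le` between unions of components. -/

open FirstOrder FirstOrder.Language FirstOrder.Language.Structure Cardinal

universe u

namespace Vale.Agent.P307

variable {L : Language.{u, u}}

/-- Apply `exists_equiv_of_subIso` to `qres L hq J₂ _` and `qres L hq' J₂' _` (index types `J₂`,
`J₂'`), with `subIso_fiber_qres`; this gives `e : U L hq J₂ ≃[L] U L hq' J₂'` with
`qres (e x) = σ (qres x)`; then `K.le_of_equiv e`. -/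
theorem le_transport (K : AEC L) {M N Q Q' : Type u} [L.Structure M] [L.Structure N]
    {q : M → Q} {q' : N → Q'} (hq : Resp L q) (hq' : Resp L q') {J₁ J₂ : Set Q}
    {J₁' J₂' : Set Q'} (h1 : constSet L q ⊆ J₁) (h12 : J₁ ⊆ J₂) (h1' : constSet L q' ⊆ J₁')
    (h12' : J₁' ⊆ J₂') (hne : J₂.Nonempty) (σ : J₂ ≃ J₂')
    (hσ : ∀ a : J₂, SubIso L (q ⁻¹' {(a : Q)}) (q' ⁻¹' {(σ a : Q')}))
    (hσJ : ∀ a : J₂, (σ a : Q') ∈ J₁' ↔ (a : Q) ∈ J₁)
    (hle : K.Le (U L hq J₁) (U L hq J₂)) : K.Le (U L hq' J₁') (U L hq' J₂') := by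
  have hJ : constSet L q ⊆ J₂ := h1.trans h12
  have hJ' : constSet L q' ⊆ J₂' := h1'.trans h12'
  have hn : Nonempty J₂ := hne.to_subtype
  obtain ⟨e, he⟩ := exists_equiv_of_subIso L (resp_qres L hq J₂ hJ) (resp_qres L hq' J₂' hJ') σ
    (fun a => (subIso_fiber_qres L hq J₂ hJ a).trans L
      ((hσ a).trans L ((subIso_fiber_qres L hq' J₂' hJ' (σ a)).symm L)))
  refine K.le_of_equiv e (U_mono L h12) (U_mono L h12') (fun x => ?_) hle
  rw [mem_U' L h1, mem_U' L h1']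
  have h := congrArg Subtype.val (he x)
  have h3 : q' (e x : N) = (σ (qres L hq J₂ hJ x) : Q') := h
  rw [h3, hσJ]
  rfl

end Vale.Agent.P307
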