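import Vale.Agent.P307.C3
import Vale.Agent.P307.C4
import Vale.Agent.P307.CNT
import Vale.Agent.P307.ISO
import Vale.Agent.P307.TR
import Vale.Agent.P307.CL

/-! P307 module ST2: small full sets of components of a member are strong. -/

open FirstOrder FirstOrder.Language FirstOrder.Language.Structure Cardinal

universe u

namespace Vale.Agent.P307

variable {L : Language.{u, u}}

/-- Let `T = tq L Λ q` and `B` the set of types of multiplicity `> χ`.  `univ` is full; take
`A ⊆ univ` full with `#A ≤ χ` (`exists_full_subset`, `mk_small_le`), `J₀ ⊇ A` from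
`exists_closed`, so `J₀` is full, `#J₀ ≤ χ` and `K.Le (U L hq J₀) ⊤`.  By `full_perm` there is a type
preserving permutation `σ` of `Q` that maps `J₀` onto `J`.  Apply `le_transport` with
`M = N`, `q = q'`, `J₁ = J₀`, `J₂ = univ`, `J₁' = J`, `J₂' = univ` (fibres by `subIso_of_ty_eq`;
`U L hq univ = ⊤`; constants by `constSet_subset`).  `Q` is nonempty: if `Q` is empty then `M` is
empty and `U L hq J = ⊤` directly (`K.le_refl`, membership of `⊤` by `mem_of_equiv` and
`Substructure.topEquiv`). -/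
theorem full_le_top (K : AEC L) (Λ : Type u) {χ : Cardinal.{u}} {M Q : Type u} [L.Structure M]
    (hM : K.Mem M) {q : M → Q} (hq : Resp L q) (hs : Function.Surjective q)
    (hf : ∀ a, #(q ⁻¹' {a}) ≤ #Λ) (hχ : ℵ₀ ≤ χ) (hΛχ : #Λ ≤ χ) (hLS : K.LS ≤ χ)
    (hLc : L.card ≤ χ) (hPat : #(Pat L Λ) ≤ χ) {J : Set Q}
    (hJ : Full (tq L Λ q) {p | χ < mult (tq L Λ q) Set.univ p} χ J) (hJc : #J ≤ χ) :
    K.Le (U L hq J) ⊤ := by
  have htop : K.Mem (⊤ : L.Substructure M) :=
    K.mem_of_equiv (Substructure.topEquiv (L := L) (M := M)).symm hM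
  rcases isEmpty_or_nonempty Q with hQ | hQ
  · have hM' : IsEmpty M := ⟨fun x => hQ.elim (q x)⟩
    have h : U L hq J = ⊤ := SetLike.ext fun x => hM'.elim x
    rw [h]
    exact K.le_refl htop
  have huniv : Full (tq L Λ q) {p | χ < mult (tq L Λ q) Set.univ p} χ Set.univ :=
    ⟨fun _ _ => trivial, fun p hp => le_of_lt hp⟩
  obtain ⟨A, _, _, hAf, hAc⟩ := exists_full_subset hχ hPat (mk_small_le hχ hPat) huniv
    (Set.subset_univ (∅ : Set Q)) (by rw [mk_eq_zero]; exact zero_le)
  obtain ⟨J₀, hAJ, hcJ, hJ₀c, hle⟩ := exists_closed K hM hq hχ hLS hLc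
    (fun a => (hf a).trans hΛχ) A hAc
  obtain ⟨σ, hσT, hσJ⟩ := full_perm hχ (fun p hp => hp) (hAf.mono hAJ) hJ hJ₀c hJc
  have hU : U L hq Set.univ = ⊤ := SetLike.ext fun x => by simp [mem_U]
  rw [← hU] at hle ⊢
  exact le_transport K hq hq hcJ (Set.subset_univ _) (constSet_subset L Λ hf hχ hJ)
    (Set.subset_univ _) Set.univ_nonempty
    ((Equiv.Set.univ Q).trans (σ.trans (Equiv.Set.univ Q).symm))
    (fun a => subIso_of_ty_eq L Λ (hf _) (hf _) (hσT a).symm) (fun a => hσJ a) hle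

end Vale.Agent.P307
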