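import Vale.Agent.P307.Defs
import Mathlib.SetTheory.Cardinal.Arithmetic
import Mathlib.SetTheory.Cardinal.Ordinal

open FirstOrder FirstOrder.Language FirstOrder.Language.Structure Cardinal

universe u

namespace Vale.Agent.P307

variable (L : Language.{u, u})

section SubIso

variable {M N P : Type u} [L.Structure M] [L.Structure N] [L.Structure P]

def SubIso (F : Set M) (G : Set N) : Prop :=
  ∃ e : F ≃ G,
    (∀ (n : ℕ) (R : L.Relations n) (v : Fin n → F),
      RelMap R (fun k => (v k : M)) ↔ RelMap R (fun k => (e (v k) : N))) ∧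
    (∀ (n : ℕ) (f : L.Functions n) (v : Fin n → F) (x : F),
      funMap f (fun k => (v k : M)) = x ↔ funMap f (fun k => (e (v k) : N)) = e x)

theorem SubIso.refl (F : Set M) : SubIso L F F :=
  ⟨Equiv.refl _, fun _ _ _ => Iff.rfl, fun _ _ _ _ => Iff.rfl⟩

theorem SubIso.symm {F : Set M} {G : Set N} (h : SubIso L F G) : SubIso L G F := by
  obtain ⟨e, h1, h2⟩ := h
  refine ⟨e.symm, fun n R v => ?_, fun n f v x => ?_⟩
  · have := h1 n R (fun k => e.symm (v k))
    simp only [Equiv.apply_symm_apply] at this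
    exact this.symm
  · have := h2 n f (fun k => e.symm (v k)) (e.symm x)
    simp only [Equiv.apply_symm_apply] at this
    exact this.symm

theorem SubIso.trans {F : Set M} {G : Set N} {H : Set P} (h : SubIso L F G)
    (h' : SubIso L G H) : SubIso L F H := by
  obtain ⟨e, h1, h2⟩ := h
  obtain ⟨e', h1', h2'⟩ := h'
  refine ⟨e.trans e', fun n R v => ?_, fun n f v x => ?_⟩
  · rw [h1 n R v, h1' n R (fun k => e (v k))]; rfl
  · rw [h2 n f v x, h2' n f (fun k => e (v k)) (e x)]; rfl

theorem subIso_preimage (S : L.Substructure M) (F : Set M) (hF : F ⊆ S) :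
    SubIso L ((↑) ⁻¹' F : Set S) F := by
  refine ⟨⟨fun x => ⟨x.1.1, x.2⟩, fun x => ⟨⟨x.1, hF x.2⟩, x.2⟩, fun x => rfl, fun x => rfl⟩,
    fun n R v => ?_, fun n f v x => ?_⟩
  · rfl
  · exact Subtype.ext_iff

end SubIso

section Codes

variable (Λ : Type u) {M N : Type u} [L.Structure M] [L.Structure N]

abbrev Pat : Type u :=
  Set Λ × Set (Σ n : ℕ, L.Relations n × (Fin n → Λ)) ×
    Set (Σ n : ℕ, L.Functions n × (Fin n → Λ) × Λ)

def code {F : Set M} (i : F → Λ) : Pat L Λ :=
  (Set.range i,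
   {p | ∃ v : Fin p.1 → F, p.2.2 = i ∘ v ∧ RelMap p.2.1 (fun k => (v k : M))},
   {p | ∃ (v : Fin p.1 → F) (x : F), p.2.2.1 = i ∘ v ∧ p.2.2.2 = i x ∧
      funMap p.2.1 (fun k => (v k : M)) = x})

noncomputable def ty (F : Set M) : Pat L Λ :=
  Classical.epsilon (fun p => ∃ i : F → Λ, Function.Injective i ∧ p = code L Λ i)

theorem subIso_of_code_eq {F : Set M} {G : Set N} {i : F → Λ} {j : G → Λ}
    (hi : Function.Injective i) (hj : Function.Injective j)
    (h : code L Λ i = code L Λ j) : SubIso L F G := by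
  have h1 : Set.range i = Set.range j := congrArg Prod.fst h
  have h2 := congrArg (fun p => p.2.1) h
  have h3 := congrArg (fun p => p.2.2) h
  simp only [code] at h2 h3
  have hex : ∀ x : F, ∃ y : G, j y = i x := fun x => by
    have : i x ∈ Set.range j := h1 ▸ ⟨x, rfl⟩
    exact this
  have hex' : ∀ y : G, ∃ x : F, i x = j y := fun y => by
    have : j y ∈ Set.range i := h1 ▸ ⟨y, rfl⟩
    exact this
  choose e he using hex
  choose e' he' using hex'
  let E : F ≃ G := ⟨e, e', fun x => hi (by rw [he', he]), fun y => hj (by rw [he, he'])⟩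
  refine ⟨E, fun n R v => ?_, fun n f v x => ?_⟩
  · have hEv : ∀ w : Fin n → G, i ∘ v = j ∘ w → w = fun k => E (v k) := by
      intro w hw
      funext k
      apply hj
      have := congrFun hw k
      simp only [Function.comp_apply] at this
      rw [← this]; exact (he (v k)).symm
    constructor
    · intro hR
      have : (⟨n, R, i ∘ v⟩ : Σ n : ℕ, L.Relations n × (Fin n → Λ)) ∈
          {p : Σ n : ℕ, L.Relations n × (Fin n → Λ) |
            ∃ v : Fin p.1 → F, p.2.2 = i ∘ v ∧ RelMap p.2.1 (fun k => (v k : M))} :=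
        ⟨v, rfl, hR⟩
      rw [h2] at this
      obtain ⟨w, hw, hR'⟩ := this
      have h4 := hEv w hw
      rw [h4] at hR'
      exact hR'
    · intro hR
      have : (⟨n, R, i ∘ v⟩ : Σ n : ℕ, L.Relations n × (Fin n → Λ)) ∈
          {p : Σ n : ℕ, L.Relations n × (Fin n → Λ) |
            ∃ v : Fin p.1 → G, p.2.2 = j ∘ v ∧ RelMap p.2.1 (fun k => (v k : N))} :=
        ⟨fun k => E (v k), by funext k; exact (he (v k)).symm, hR⟩
      rw [← h2] at this
      obtain ⟨w, hw, hR'⟩ := this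
      have h4 : w = v := by
        funext k
        apply hi
        exact (congrFun hw k).symm
      rw [h4] at hR'
      exact hR'
  · have hEv : ∀ w : Fin n → G, i ∘ v = j ∘ w → w = fun k => E (v k) := by
      intro w hw
      funext k
      apply hj
      have := congrFun hw k
      simp only [Function.comp_apply] at this
      rw [← this]; exact (he (v k)).symm
    constructor
    · intro hR
      have : (⟨n, f, i ∘ v, i x⟩ : Σ n : ℕ, L.Functions n × (Fin n → Λ) × Λ) ∈
          {p : Σ n : ℕ, L.Functions n × (Fin n → Λ) × Λ |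
            ∃ (v : Fin p.1 → F) (x : F), p.2.2.1 = i ∘ v ∧ p.2.2.2 = i x ∧
            funMap p.2.1 (fun k => (v k : M)) = x} :=
        ⟨v, x, rfl, rfl, hR⟩
      rw [h3] at this
      obtain ⟨w, y, hw, hy, hR'⟩ := this
      have h4 := hEv w hw
      have h5 : y = E x := hj (by rw [← hy]; exact (he x).symm)
      rw [h4, h5] at hR'
      exact hR'
    · intro hR
      have : (⟨n, f, i ∘ v, i x⟩ : Σ n : ℕ, L.Functions n × (Fin n → Λ) × Λ) ∈
          {p : Σ n : ℕ, L.Functions n × (Fin n → Λ) × Λ |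
            ∃ (v : Fin p.1 → G) (x : G), p.2.2.1 = j ∘ v ∧ p.2.2.2 = j x ∧
            funMap p.2.1 (fun k => (v k : N)) = x} :=
        ⟨fun k => E (v k), E x, by funext k; exact (he (v k)).symm, (he x).symm, hR⟩
      rw [← h3] at this
      obtain ⟨w, y, hw, hy, hR'⟩ := this
      have h4 : w = v := by
        funext k
        apply hi
        exact (congrFun hw k).symm
      have h5 : y = x := hi hy.symm
      rw [h4, h5] at hR'
      exact hR'

theorem code_comp_symm {F : Set M} {G : Set N} (e : F ≃ G)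
    (h1 : ∀ (n : ℕ) (R : L.Relations n) (v : Fin n → F),
      RelMap R (fun k => (v k : M)) ↔ RelMap R (fun k => (e (v k) : N)))
    (h2 : ∀ (n : ℕ) (f : L.Functions n) (v : Fin n → F) (x : F),
      funMap f (fun k => (v k : M)) = x ↔ funMap f (fun k => (e (v k) : N)) = e x)
    (i : F → Λ) : code L Λ (fun y => i (e.symm y)) = code L Λ i := by
  refine Prod.ext ?_ (Prod.ext ?_ ?_)
  · ext z
    constructor
    · rintro ⟨y, rfl⟩; exact ⟨e.symm y, rfl⟩
    · rintro ⟨x, rfl⟩; exact ⟨e x, by simp⟩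
  · ext ⟨n, R, w⟩
    constructor
    · rintro ⟨v, hv, hR⟩
      refine ⟨fun k => e.symm (v k), hv, ?_⟩
      exact (h1 n R (fun k => e.symm (v k))).2 (by simpa using hR)
    · rintro ⟨v, hv, hR⟩
      refine ⟨fun k => e (v k), ?_, (h1 n R v).1 hR⟩
      funext k
      have := congrFun hv k
      simpa using this
  · ext ⟨n, f, w, z⟩
    constructor
    · rintro ⟨v, x, hv, hx, hR⟩
      refine ⟨fun k => e.symm (v k), e.symm x, hv, hx, ?_⟩
      exact (h2 n f (fun k => e.symm (v k)) (e.symm x)).2 (by simpa using hR)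
    · rintro ⟨v, x, hv, hx, hR⟩
      refine ⟨fun k => e (v k), e x, ?_, ?_, (h2 n f v x).1 hR⟩
      · funext k
        have := congrFun hv k
        simpa using this
      · simpa using hx

theorem ty_eq_of_subIso {F : Set M} {G : Set N} (h : SubIso L F G) :
    ty L Λ F = ty L Λ G := by
  unfold ty
  congr 1
  funext p
  apply propext
  have key : ∀ {M' N' : Type u} [L.Structure M'] [L.Structure N'] {F' : Set M'} {G' : Set N'},
      SubIso L F' G' → (∃ i : F' → Λ, Function.Injective i ∧ p = code L Λ i) →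
      ∃ i : G' → Λ, Function.Injective i ∧ p = code L Λ i := by
    intro M' N' _ _ F' G' hFG ⟨i, hi, hp⟩
    obtain ⟨e, h1, h2⟩ := hFG
    refine ⟨fun y => i (e.symm y), hi.comp e.symm.injective, ?_⟩
    rw [hp, code_comp_symm L Λ e h1 h2]
  exact ⟨key h, key (h.symm L)⟩

theorem ty_spec {F : Set M} (hF : #F ≤ #Λ) :
    ∃ i : F → Λ, Function.Injective i ∧ ty L Λ F = code L Λ i := by
  have : ∃ p, ∃ i : F → Λ, Function.Injective i ∧ p = code L Λ i := by
    obtain ⟨i⟩ := (Cardinal.le_def _ _).1 hF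
    exact ⟨_, i, i.injective, rfl⟩
  exact Classical.epsilon_spec this

theorem subIso_of_ty_eq {F : Set M} {G : Set N} (hF : #F ≤ #Λ) (hG : #G ≤ #Λ)
    (h : ty L Λ F = ty L Λ G) : SubIso L F G := by
  obtain ⟨i, hi, h1⟩ := ty_spec L Λ hF
  obtain ⟨j, hj, h2⟩ := ty_spec L Λ hG
  exact subIso_of_code_eq L Λ hi hj (by rw [← h1, ← h2, h])

theorem mk_pat_le (hΛ : ℵ₀ ≤ #Λ) (hL : L.card ≤ #Λ) : #(Pat L Λ) ≤ 2 ^ #Λ := by
  have : Infinite Λ := infinite_iff.2 hΛ
  have hlist : #(List Λ) = #Λ := mk_list_eq_mk Λ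
  have hsym : #L.Symbols = L.card := rfl
  have h1 : #(Σ n : ℕ, L.Relations n × (Fin n → Λ)) ≤ #Λ := by
    have hinj : Function.Injective (fun p : Σ n : ℕ, L.Relations n × (Fin n → Λ) =>
        ((Sum.inr ⟨p.1, p.2.1⟩ : L.Symbols), List.ofFn p.2.2)) := by
      rintro ⟨n, R, v⟩ ⟨m, R', v'⟩ h
      simp only [Prod.mk.injEq, Sum.inr.injEq, Sigma.mk.injEq] at h
      obtain ⟨⟨rfl, h2⟩, h3⟩ := h
      have := eq_of_heq h2
      subst this
      have := List.ofFn_injective h3
      subst this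
      rfl
    calc #(Σ n : ℕ, L.Relations n × (Fin n → Λ)) ≤ #(L.Symbols × List Λ) :=
          mk_le_of_injective hinj
      _ = L.card * #Λ := by rw [mk_prod, lift_id, lift_id, hsym, hlist]
      _ ≤ #Λ * #Λ := by gcongr
      _ = #Λ := mul_eq_self hΛ
  have h2 : #(Σ n : ℕ, L.Functions n × (Fin n → Λ) × Λ) ≤ #Λ := by
    have hinj : Function.Injective (fun p : Σ n : ℕ, L.Functions n × (Fin n → Λ) × Λ =>
        ((Sum.inl ⟨p.1, p.2.1⟩ : L.Symbols), List.ofFn p.2.2.1, p.2.2.2)) := by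
      rintro ⟨n, R, v, x⟩ ⟨m, R', v', x'⟩ h
      simp only [Prod.mk.injEq, Sum.inl.injEq, Sigma.mk.injEq] at h
      obtain ⟨⟨rfl, h2⟩, h3, rfl⟩ := h
      have := eq_of_heq h2
      subst this
      have := List.ofFn_injective h3
      subst this
      rfl
    calc #(Σ n : ℕ, L.Functions n × (Fin n → Λ) × Λ) ≤ #(L.Symbols × List Λ × Λ) :=
          mk_le_of_injective hinj
      _ = L.card * #Λ := by simp only [mk_prod, lift_id, hsym, hlist, mul_eq_self hΛ]
      _ ≤ #Λ * #Λ := by gcongr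
      _ = #Λ := mul_eq_self hΛ
  have h2l : ℵ₀ ≤ (2 : Cardinal.{u}) ^ #Λ := hΛ.trans (cantor _).le
  calc #(Pat L Λ) = 2 ^ #Λ * (2 ^ #(Σ n : ℕ, L.Relations n × (Fin n → Λ)) *
        2 ^ #(Σ n : ℕ, L.Functions n × (Fin n → Λ) × Λ)) := by
        simp only [Pat, mk_prod, lift_id, mk_set]
    _ ≤ 2 ^ #Λ * (2 ^ #Λ * 2 ^ #Λ) :=
        mul_le_mul' le_rfl (mul_le_mul' (power_le_power_left two_ne_zero h1)
          (power_le_power_left two_ne_zero h2))
    _ = 2 ^ #Λ := by rw [mul_eq_self h2l, mul_eq_self h2l]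

end Codes

end Vale.Agent.P307
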